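import Mathlib

/-!
Real-variable lemmas used for P322 (Courtade-Kumar).
`phi t = t log t`, `Lam t = ((1+t) log (1+t) + (1-t) log (1-t)) / 2`.
-/

namespace Vale.Agent.Lib.P322

open Real Set

/-- `phi t = t log t`. -/
noncomputable def phi (t : ℝ) : ℝ := t * Real.log t

/-- `Lam t = ((1+t) log (1+t) + (1-t) log (1-t)) / 2`. -/
noncomputable def Lam (t : ℝ) : ℝ := (phi (1 + t) + phi (1 - t)) / 2

/-- The derivative of `Lam` on `(-1,1)`. -/
noncomputable def Lam1 (t : ℝ) : ℝ := (Real.log (1 + t) - Real.log (1 - t)) / 2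

lemma continuous_phi : Continuous phi := Real.continuous_mul_log

lemma continuous_Lam : Continuous Lam := by
  unfold Lam
  have h1 : Continuous fun t : ℝ => phi (1 + t) := continuous_phi.comp (by fun_prop)
  have h2 : Continuous fun t : ℝ => phi (1 - t) := continuous_phi.comp (by fun_prop)
  exact (h1.add h2).div_const 2

@[simp] lemma phi_zero : phi 0 = 0 := by simp [phi]
@[simp] lemma phi_one : phi 1 = 0 := by simp [phi]
@[simp] lemma Lam_zero : Lam 0 = 0 := by simp [Lam]
@[simp] lemma Lam1_zero : Lam1 0 = 0 := by simp [Lam1]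

lemma Lam_neg (t : ℝ) : Lam (-t) = Lam t := by
  unfold Lam
  rw [show 1 + -t = 1 - t by ring, show 1 - -t = 1 + t by ring]
  ring

lemma Lam_one : Lam 1 = Real.log 2 := by
  unfold Lam phi
  norm_num

lemma hasDerivAt_Lam {t : ℝ} (h1 : -1 < t) (h2 : t < 1) : HasDerivAt Lam (Lam1 t) t := by
  have ha : HasDerivAt (fun s : ℝ => phi (1 + s)) ((Real.log (1 + t) + 1) * 1) t := by
    have := (Real.hasDerivAt_mul_log (x := 1 + t) (by linarith)).comp t
      ((hasDerivAt_id t).const_add 1)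
    simpa [phi, Function.comp_def] using this
  have hb : HasDerivAt (fun s : ℝ => phi (1 - s)) ((Real.log (1 - t) + 1) * (-1)) t := by
    have := (Real.hasDerivAt_mul_log (x := 1 - t) (by linarith)).comp t
      ((hasDerivAt_id t).const_sub 1)
    simpa [phi, Function.comp_def] using this
  exact ((ha.add hb).div_const 2).congr_deriv (by unfold Lam1; ring)

lemma hasDerivAt_Lam1 {t : ℝ} (h1 : -1 < t) (h2 : t < 1) :
    HasDerivAt Lam1 (1 / (1 - t ^ 2)) t := by
  have ha : HasDerivAt (fun s : ℝ => Real.log (1 + s)) (1 / (1 + t)) t :=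
    ((hasDerivAt_id t).const_add 1).log (by simp; linarith)
  have hb : HasDerivAt (fun s : ℝ => Real.log (1 - s)) (-1 / (1 - t)) t :=
    ((hasDerivAt_id t).const_sub 1).log (by simp; linarith)
  have h3 : (1 + t) ≠ 0 := by linarith
  have h4 : (1 - t) ≠ 0 := by linarith
  have h5 : (1 - t ^ 2) ≠ 0 := by
    have : (1 - t ^ 2) = (1 + t) * (1 - t) := by ring
    rw [this]; exact mul_ne_zero h3 h4
  refine ((ha.sub hb).div_const 2).congr_deriv ?_
  field_simp
  ring

/-- Second derivative test on `[0,1)`. -/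
lemma nonneg_of_deriv2 {D D1 D2 : ℝ → ℝ}
    (h1 : ∀ t ∈ Ico (0:ℝ) 1, HasDerivAt D (D1 t) t)
    (h2 : ∀ t ∈ Ico (0:ℝ) 1, HasDerivAt D1 (D2 t) t)
    (h3 : ∀ t ∈ Ico (0:ℝ) 1, 0 ≤ D2 t) (h0 : D 0 = 0) (h10 : D1 0 = 0) :
    ∀ t ∈ Ico (0:ℝ) 1, 0 ≤ D t := by
  have hsub : interior (Ico (0:ℝ) 1) ⊆ Ico (0:ℝ) 1 := interior_subset
  have m1 : MonotoneOn D1 (Ico (0:ℝ) 1) := by
    apply monotoneOn_of_deriv_nonneg (convex_Ico 0 1)
    · intro t ht; exact (h2 t ht).continuousAt.continuousWithinAt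
    · intro t ht; exact (h2 t (hsub ht)).differentiableAt.differentiableWithinAt
    · intro t ht; rw [(h2 t (hsub ht)).deriv]; exact h3 t (hsub ht)
  have p1 : ∀ t ∈ Ico (0:ℝ) 1, 0 ≤ D1 t := by
    intro t ht
    have := m1 (show (0:ℝ) ∈ Ico (0:ℝ) 1 by simp) ht ht.1
    linarith
  have m0 : MonotoneOn D (Ico (0:ℝ) 1) := by
    apply monotoneOn_of_deriv_nonneg (convex_Ico 0 1)
    · intro t ht; exact (h1 t ht).continuousAt.continuousWithinAt
    · intro t ht; exact (h1 t (hsub ht)).differentiableAt.differentiableWithinAt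
    · intro t ht; rw [(h1 t (hsub ht)).deriv]; exact p1 t (hsub ht)
  intro t ht
  have := m0 (show (0:ℝ) ∈ Ico (0:ℝ) 1 by simp) ht ht.1
  linarith

/-- Extension of a closed inequality from `[0,1)` to `[0,1]`. -/
lemma nonneg_Icc_of_Ico {D : ℝ → ℝ} (hc : Continuous D) (h : ∀ t ∈ Ico (0:ℝ) 1, 0 ≤ D t) :
    ∀ t ∈ Icc (0:ℝ) 1, 0 ≤ D t := by
  have hcl : IsClosed {t : ℝ | 0 ≤ D t} := isClosed_le continuous_const hc
  have hsub : Ico (0:ℝ) 1 ⊆ {t : ℝ | 0 ≤ D t} := h
  have := closure_minimal hsub hcl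
  rw [closure_Ico (by norm_num : (0:ℝ) ≠ 1)] at this
  exact this

/-- Key scaling inequality: `Lam (l * t) ≤ l^2 * Lam t` for `l, t ∈ [0,1]`. -/
lemma Lam_mul_le {l t : ℝ} (hl0 : 0 ≤ l) (hl1 : l ≤ 1) (ht0 : 0 ≤ t) (ht1 : t ≤ 1) :
    Lam (l * t) ≤ l ^ 2 * Lam t := by
  have key : ∀ s ∈ Icc (0:ℝ) 1, 0 ≤ l ^ 2 * Lam s - Lam (l * s) := by
    apply nonneg_Icc_of_Ico
    · have : Continuous fun s : ℝ => Lam (l * s) := continuous_Lam.comp (by fun_prop)
      exact (continuous_Lam.const_mul (l ^ 2)).sub this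
    · apply nonneg_of_deriv2 (D1 := fun s => l ^ 2 * Lam1 s - Lam1 (l * s) * l)
        (D2 := fun s => l ^ 2 * (1 / (1 - s ^ 2)) - (1 / (1 - (l * s) ^ 2)) * l * l)
      · intro s hs
        have hls : l * s < 1 := by nlinarith [hs.1, hs.2]
        have hls0 : -1 < l * s := by nlinarith [hs.1, hs.2, mul_nonneg hl0 hs.1]
        have a := (hasDerivAt_Lam (t := s) (by linarith [hs.1]) hs.2).const_mul (l ^ 2)
        have b : HasDerivAt (fun s => Lam (l * s)) (Lam1 (l * s) * l) s := by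
          have := (hasDerivAt_Lam hls0 hls).comp s (((hasDerivAt_id s).const_mul l))
          simpa [Function.comp_def] using this
        exact a.sub b
      · intro s hs
        have hls : l * s < 1 := by nlinarith [hs.1, hs.2]
        have hls0 : -1 < l * s := by nlinarith [hs.1, hs.2, mul_nonneg hl0 hs.1]
        have a := (hasDerivAt_Lam1 (t := s) (by linarith [hs.1]) hs.2).const_mul (l ^ 2)
        have b : HasDerivAt (fun s => Lam1 (l * s) * l) ((1 / (1 - (l * s) ^ 2)) * l * l) s := by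
          have := ((hasDerivAt_Lam1 hls0 hls).comp s (((hasDerivAt_id s).const_mul l))).mul_const l
          simpa [Function.comp_def] using this
        exact a.sub b
      · intro s hs
        have hs2 : 0 < 1 - s ^ 2 := by nlinarith [hs.1, hs.2]
        have hls2 : 1 - s ^ 2 ≤ 1 - (l * s) ^ 2 := by
          have : (l * s) ^ 2 ≤ s ^ 2 := by
            have : l * s ≤ s := by nlinarith [hs.1]
            exact pow_le_pow_left₀ (mul_nonneg hl0 hs.1) this 2
          linarith
        have : 1 / (1 - (l * s) ^ 2) ≤ 1 / (1 - s ^ 2) := one_div_le_one_div_of_le hs2 hls2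
        have hl2 : 0 ≤ l ^ 2 := by positivity
        nlinarith
      · simp
      · simp
  have := key t ⟨ht0, ht1⟩
  linarith

/-- `Lam t ≥ t^2 / 2` on `[0,1]`. -/
lemma Lam_ge_sq {t : ℝ} (ht0 : 0 ≤ t) (ht1 : t ≤ 1) : t ^ 2 / 2 ≤ Lam t := by
  have key : ∀ s ∈ Icc (0:ℝ) 1, 0 ≤ Lam s - s ^ 2 / 2 := by
    apply nonneg_Icc_of_Ico
    · exact continuous_Lam.sub (by fun_prop)
    · apply nonneg_of_deriv2 (D1 := fun s => Lam1 s - s)
        (D2 := fun s => (1 / (1 - s ^ 2)) - 1)
      · intro s hs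
        have a := (hasDerivAt_Lam (t := s) (by linarith [hs.1]) hs.2)
        have b : HasDerivAt (fun s : ℝ => s ^ 2 / 2) s s := by
          exact (((hasDerivAt_id s).pow 2).div_const 2).congr_deriv (by simp)
        exact a.sub b
      · intro s hs
        have a := (hasDerivAt_Lam1 (t := s) (by linarith [hs.1]) hs.2)
        exact a.sub (hasDerivAt_id s)
      · intro s hs
        have hs2 : 0 < 1 - s ^ 2 := by nlinarith [hs.1, hs.2]
        have : 1 ≤ 1 / (1 - s ^ 2) := by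
          rw [le_div_iff₀ hs2]; nlinarith [sq_nonneg s]
        linarith
      · simp
      · simp
  have := key t ⟨ht0, ht1⟩
  linarith

lemma Lam_nonneg {t : ℝ} (ht0 : 0 ≤ t) (ht1 : t ≤ 1) : 0 ≤ Lam t :=
  le_trans (by positivity) (Lam_ge_sq ht0 ht1)

lemma Lam1_nonneg {t : ℝ} (ht0 : 0 ≤ t) (ht1 : t < 1) : 0 ≤ Lam1 t := by
  unfold Lam1
  have : Real.log (1 - t) ≤ Real.log (1 + t) := Real.log_le_log (by linarith) (by linarith)
  linarith

/-- `(1 - t^2) Lam t ≤ t^2 / 2` on `[0,1]`. -/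
lemma one_sub_sq_mul_Lam_le {t : ℝ} (ht0 : 0 ≤ t) (ht1 : t ≤ 1) :
    (1 - t ^ 2) * Lam t ≤ t ^ 2 / 2 := by
  have key : ∀ s ∈ Icc (0:ℝ) 1, 0 ≤ s ^ 2 / 2 - (1 - s ^ 2) * Lam s := by
    apply nonneg_Icc_of_Ico
    · exact Continuous.sub (by fun_prop) (Continuous.mul (by fun_prop) continuous_Lam)
    · apply nonneg_of_deriv2 (D1 := fun s => s - ((-(2 * s)) * Lam s + (1 - s ^ 2) * Lam1 s))
        (D2 := fun s => 1 - (((-2) * Lam s + (-(2 * s)) * Lam1 s)
            + ((-(2 * s)) * Lam1 s + (1 - s ^ 2) * (1 / (1 - s ^ 2)))))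
      · intro s hs
        have a := (hasDerivAt_Lam (t := s) (by linarith [hs.1]) hs.2)
        have b : HasDerivAt (fun s : ℝ => s ^ 2 / 2) s s := by
          exact (((hasDerivAt_id s).pow 2).div_const 2).congr_deriv (by simp)
        have c : HasDerivAt (fun s : ℝ => 1 - s ^ 2) (-(2 * s)) s := by
          exact (((hasDerivAt_id s).pow 2).const_sub 1).congr_deriv (by simp)
        exact b.sub (c.mul a)
      · intro s hs
        have a := (hasDerivAt_Lam (t := s) (by linarith [hs.1]) hs.2)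
        have a1 := (hasDerivAt_Lam1 (t := s) (by linarith [hs.1]) hs.2)
        have c : HasDerivAt (fun s : ℝ => 1 - s ^ 2) (-(2 * s)) s := by
          exact (((hasDerivAt_id s).pow 2).const_sub 1).congr_deriv (by simp)
        have d : HasDerivAt (fun s : ℝ => -(2 * s)) (-2) s := by
          exact (((hasDerivAt_id s).const_mul 2).neg).congr_deriv (by simp)
        exact (hasDerivAt_id s).sub ((d.mul a).add (c.mul a1))
      · intro s hs
        have hs2 : 0 < 1 - s ^ 2 := by nlinarith [hs.1, hs.2]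
        have e : (1 - s ^ 2) * (1 / (1 - s ^ 2)) = 1 := by field_simp
        have l0 := Lam_nonneg hs.1 hs.2.le
        have l1 := Lam1_nonneg hs.1 hs.2
        rw [e]
        nlinarith [mul_nonneg hs.1 l1]
      · simp
      · simp
  have := key t ⟨ht0, ht1⟩
  linarith

end Vale.Agent.Lib.P322
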