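import Vale.Agent.Lib.P322.CubeBasic

/-!
Bessel's inequality for the coordinate characters on the cube.
-/

namespace Vale.Agent.Lib.P322

open Finset

/-- The coordinate function `x ↦ x_i` with real values `±1`. -/
noncomputable def chi {n : ℕ} (i : Fin n) (x : Cube n) : ℝ := if x i = 1 then 1 else -1

lemma avg_sum {n : ℕ} {ι : Type} (s : Finset ι) (F : ι → Cube n → ℝ) :
    avg (fun x => ∑ i ∈ s, F i x) = ∑ i ∈ s, avg (F i) := by
  unfold avg
  rw [Finset.sum_comm, Finset.mul_sum]

lemma chi_sq {n : ℕ} (i : Fin n) (x : Cube n) : chi i x * chi i x = 1 := by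
  unfold chi; split_ifs <;> norm_num

lemma chi_insertNth_same {m : ℕ} (i : Fin (m + 1)) (v : ℤˣ) (x' : Cube m) :
    chi i (Fin.insertNth i v x' : Cube (m + 1)) = if v = 1 then 1 else -1 := by
  unfold chi; simp

lemma chi_insertNth_ne {m : ℕ} {i j : Fin (m + 1)} (h : j ≠ i) (u v : ℤˣ) (x' : Cube m) :
    chi j (Fin.insertNth i u x' : Cube (m + 1)) = chi j (Fin.insertNth i v x' : Cube (m + 1)) := by
  obtain ⟨k, rfl⟩ := Fin.exists_succAbove_eq h
  unfold chi; simp

lemma avg_mul_chi {m : ℕ} (i : Fin (m + 1)) (g : Cube (m + 1) → ℝ) :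
    avg (fun x => g x * chi i x) = (avg (slice g i 1) - avg (slice g i (-1))) / 2 := by
  rw [avg_succ i]
  have ne' : (-1 : ℤˣ) ≠ 1 := by decide
  have e1 : slice (fun x => g x * chi i x) i 1 = slice g i 1 := by
    funext x'; unfold slice; beta_reduce; rw [chi_insertNth_same]; simp
  have e2 : slice (fun x => g x * chi i x) i (-1) = fun x' => (-1) * slice g i (-1) x' := by
    funext x'; unfold slice; beta_reduce; rw [chi_insertNth_same]; simp [ne']
  rw [e1, e2, avg_const_mul]; ring

lemma avg_chi {n : ℕ} (i : Fin n) : avg (chi i) = 0 := by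
  cases n with
  | zero => exact i.elim0
  | succ m =>
    have := avg_mul_chi i (fun _ => (1:ℝ))
    simp only [one_mul] at this
    rw [show (chi i : Cube (m + 1) → ℝ) = fun x => chi i x from rfl, this]
    unfold slice
    simp

lemma avg_chi_mul_chi {n : ℕ} (i j : Fin n) :
    avg (fun x => chi j x * chi i x) = if i = j then 1 else 0 := by
  cases n with
  | zero => exact i.elim0
  | succ m =>
    by_cases h : i = j
    · subst h
      simp only [chi_sq, if_true]
      exact avg_const 1
    · rw [if_neg h, avg_mul_chi i (chi j)]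
      have : slice (chi j) i 1 = slice (chi j) i (-1) := by
        funext x'; unfold slice; exact chi_insertNth_ne (Ne.symm h) _ _ _
      rw [this]; ring

/-- Bessel's inequality: the level-one Fourier weight is at most the variance. -/
theorem bessel {n : ℕ} (g : Cube n → ℝ) :
    ∑ i, (avg (fun x => g x * chi i x)) ^ 2 ≤ avg (fun x => g x ^ 2) - (avg g) ^ 2 := by
  set a := avg g with ha
  set c : Fin n → ℝ := fun i => avg (fun x => g x * chi i x) with hc
  have h0 : 0 ≤ avg (fun x => (g x - (a + ∑ i, c i * chi i x)) ^ 2) :=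
    avg_nonneg fun x => sq_nonneg _
  have expand : ∀ x, (g x - (a + ∑ i, c i * chi i x)) ^ 2
      = g x ^ 2 - 2 * a * g x - 2 * (∑ i, c i * (g x * chi i x)) + a ^ 2
        + 2 * a * (∑ i, c i * chi i x)
        + ∑ i, ∑ j, (c i * c j) * (chi j x * chi i x) := by
    intro x
    have e1 : ∑ i, c i * (g x * chi i x) = g x * ∑ i, c i * chi i x := by
      rw [Finset.mul_sum]; exact Finset.sum_congr rfl fun i _ => by ring
    have e2 : ∑ i, ∑ j, (c i * c j) * (chi j x * chi i x)
        = (∑ i, c i * chi i x) * (∑ j, c j * chi j x) := by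
      rw [Finset.sum_mul_sum]
      exact Finset.sum_congr rfl fun i _ => Finset.sum_congr rfl fun j _ => by ring
    rw [e1, e2]; ring
  simp only [expand] at h0
  simp only [avg_add, avg_sub, avg_const_mul, avg_sum, avg_const, avg_chi_mul_chi] at h0
  have s1 : ∑ i, c i * avg (fun x => chi i x) = 0 := by
    apply Finset.sum_eq_zero; intro i _
    rw [show (fun x => chi i x) = chi i from rfl, avg_chi]; ring
  have s2 : ∑ i, ∑ j, (c i * c j) * (if i = j then (1:ℝ) else 0) = ∑ i, c i ^ 2 := by
    apply Finset.sum_congr rfl; intro i _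
    simp [pow_two]
  have s3 : ∑ i, c i * avg (fun x => g x * chi i x) = ∑ i, c i ^ 2 := by
    apply Finset.sum_congr rfl; intro i _
    rw [pow_two]
  rw [s1, s2, s3] at h0
  have : avg (fun x => g x) = a := rfl
  rw [this] at h0
  nlinarith

end Vale.Agent.Lib.P322
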