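import Vale.Agent.Lib.P322.Coord

/-!
The bound `I(f(X);Y) ≤ (1-r^2) I(f(X);Y_i) + r^2 (H(f(X)) - Inf_i(f) h(ε))`, `r = 1 - 2ε`.
-/

namespace Vale.Agent.Lib.P322

open Finset

/-- The slices of `g` in direction `i`, mixed by the channel weights. -/
noncomputable def mixSlice (ε : ℝ) {m : ℕ} (g : Cube (m + 1) → ℝ) (i : Fin (m + 1)) (v : ℤˣ) :
    Cube m → ℝ :=
  fun x' => mix ε v (slice g i 1 x') (slice g i (-1) x')

lemma noiseOp_insertNth' (ε : ℝ) {m : ℕ} (i : Fin (m + 1)) (g : Cube (m + 1) → ℝ) (v : ℤˣ)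
    (y' : Cube m) :
    noiseOp ε g (Fin.insertNth i v y') = noiseOp ε (mixSlice ε g i v) y' := by
  rw [noiseOp_insertNth]
  unfold mixSlice mix
  rw [noiseOp_add, noiseOp_const_mul, noiseOp_const_mul]

lemma avg_mixSlice (ε : ℝ) {m : ℕ} (g : Cube (m + 1) → ℝ) (i : Fin (m + 1)) (v : ℤˣ) :
    avg (mixSlice ε g i v) = mix ε v (avg (slice g i 1)) (avg (slice g i (-1))) := by
  unfold mixSlice mix
  rw [avg_add, avg_const_mul, avg_const_mul]

lemma mixSlice_nonneg {ε : ℝ} (h0 : 0 ≤ ε) (h1 : ε ≤ 1) {m : ℕ} {g : Cube (m + 1) → ℝ}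
    (hg : ∀ x, 0 ≤ g x) (i : Fin (m + 1)) (v : ℤˣ) (x' : Cube m) : 0 ≤ mixSlice ε g i v x' :=
  mix_nonneg h0 h1 v (hg _) (hg _)

/-- Exact treatment of coordinate `i`, strong data processing for the others. -/
lemma phi_bound {ε : ℝ} (h0 : 0 ≤ ε) (h1 : ε ≤ 1 / 2) {m : ℕ} (g : Cube (m + 1) → ℝ)
    (hg : ∀ x, 0 ≤ g x) (i : Fin (m + 1)) :
    avg (fun y => phi (noiseOp ε g y)) ≤
      (((1 - 2 * ε) ^ 2 * avg (fun x => phi (mixSlice ε g i 1 x))
          + (1 - (1 - 2 * ε) ^ 2) * phi (avg (mixSlice ε g i 1)))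
        + ((1 - 2 * ε) ^ 2 * avg (fun x => phi (mixSlice ε g i (-1) x))
          + (1 - (1 - 2 * ε) ^ 2) * phi (avg (mixSlice ε g i (-1))))) / 2 := by
  have he1 : ε ≤ 1 := by linarith
  rw [avg_succ i]
  have e : ∀ v : ℤˣ, slice (fun y => phi (noiseOp ε g y)) i v
      = fun y' => phi (noiseOp ε (mixSlice ε g i v) y') := by
    intro v; funext y'; unfold slice; beta_reduce; rw [noiseOp_insertNth']
  rw [e, e]
  have s1 := sdpi h0 h1 m (mixSlice ε g i 1) (mixSlice_nonneg h0 he1 hg i 1)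
  have s2 := sdpi h0 h1 m (mixSlice ε g i (-1)) (mixSlice_nonneg h0 he1 hg i (-1))
  linarith

lemma mixSlice_one_sub (ε : ℝ) {m : ℕ} (g : Cube (m + 1) → ℝ) (i : Fin (m + 1)) (v : ℤˣ) :
    mixSlice ε (fun x => 1 - g x) i v = fun x' => 1 - mixSlice ε g i v x' := by
  funext x'; unfold mixSlice slice; exact mix_one_sub ε v _ _

lemma bent_zero : bent 0 = 0 := by simp [bent]
lemma bent_one : bent 1 = 0 := by simp [bent]
lemma bent_one_sub (t : ℝ) : bent (1 - t) = bent t := by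
  unfold bent; rw [show 1 - (1 - t) = t by ring]; ring

lemma bent_eq_neg_binEntropy (t : ℝ) : bent t = -Real.binEntropy t := by
  rw [binEntropy_eq_phi]; unfold bent; ring

/-- The indicator that the two slices of `ind f 1` differ. -/
noncomputable def sens {m : ℕ} (f : Cube (m + 1) → ℤˣ) (i : Fin (m + 1)) (x' : Cube m) : ℝ :=
  if slice (ind f 1) i 1 x' = slice (ind f 1) i (-1) x' then 0 else 1

lemma bent_mixSlice (ε : ℝ) {m : ℕ} (f : Cube (m + 1) → ℤˣ) (i : Fin (m + 1)) (v : ℤˣ)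
    (x' : Cube m) : bent (mixSlice ε (ind f 1) i v x') = bent ε * sens f i x' := by
  unfold mixSlice sens mix
  have hs := wt_sum' ε v
  rcases ind_zero_or_one f 1 (Fin.insertNth i 1 x') with a | a <;>
  rcases ind_zero_or_one f 1 (Fin.insertNth i (-1) x') with b | b <;>
  simp only [slice, a, b]
  · simp [bent_zero]
  · rcases Int.units_eq_one_or v with rfl | rfl
    · simp [wt_neg_one]
    · simp [wt_neg_neg, bent_one_sub]
  · rcases Int.units_eq_one_or v with rfl | rfl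
    · simp [wt_one_one, bent_one_sub]
    · simp [wt_one_neg]
  · simp [hs, bent_one]

lemma ind_eq_iff {n : ℕ} (f : Cube n → ℤˣ) (x y : Cube n) :
    ind f 1 x = ind f 1 y ↔ f x = f y := by
  unfold ind
  have ne' : (-1 : ℤˣ) ≠ 1 := by decide
  have ne : (1 : ℤˣ) ≠ -1 := by decide
  rcases Int.units_eq_one_or (f x) with a | a <;> rcases Int.units_eq_one_or (f y) with b | b <;>
    simp [a, b, ne, ne']

lemma influence_eq {m : ℕ} (f : Cube (m + 1) → ℤˣ) (i : Fin (m + 1)) :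
    influence f i = avg (sens f i) := by
  unfold influence avg
  rw [← Finset.sum_boole, sum_cube_succ i]
  simp only [Fin.insertNth_apply_same, Fin.update_insertNth, neg_neg]
  rw [← Finset.sum_add_distrib, pow_succ, mul_assoc, Finset.mul_sum]
  congr 1
  apply Finset.sum_congr rfl
  intro x' _
  unfold sens slice
  by_cases h : f (Fin.insertNth i 1 x') = f (Fin.insertNth i (-1) x')
  · have h' := (ind_eq_iff f _ _).2 h
    simp [h, h']
  · have h' : ¬ ind f 1 (Fin.insertNth i 1 x') = ind f 1 (Fin.insertNth i (-1) x') :=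
      fun hh => h ((ind_eq_iff f _ _).1 hh)
    have h2 : ¬ f (Fin.insertNth i (-1) x') = f (Fin.insertNth i 1 x') := fun hh => h hh.symm
    simp [h, h', h2]
    norm_num

lemma probOne_eq {n : ℕ} (f : Cube n → ℤˣ) : probOne f = avg (ind f 1) := by
  unfold probOne avg ind
  rw [← Finset.sum_boole]

/-- The bound in nats. -/
lemma bound_nats {ε : ℝ} (h0 : 0 ≤ ε) (h1 : ε ≤ 1 / 2) {m : ℕ} (f : Cube (m + 1) → ℤˣ)
    (i : Fin (m + 1)) :
    infoFY ε f * Real.log 2 ≤
      (1 - (1 - 2 * ε) ^ 2) * (infoFYi ε f i * Real.log 2)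
        + (1 - 2 * ε) ^ 2 * (bent ε * influence f i - bent (avg (ind f 1))) := by
  have he1 : ε ≤ 1 := by linarith
  rw [infoFY_formula h0 he1, infoFYi_formula h0 he1 f i, influence_eq]
  have A := phi_bound h0 h1 (ind f 1) (ind_nonneg f 1) i
  have B := phi_bound h0 h1 (fun x => 1 - ind f 1 x)
    (fun x => by rcases ind_zero_or_one f 1 x with a | a <;> simp [a]) i
  simp only [noiseOp_one_sub, mixSlice_one_sub, avg_one_sub] at B
  have C : avg (fun y => bent (noiseOp ε (ind f 1) y))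
      = avg (fun y => phi (noiseOp ε (ind f 1) y)) + avg (fun y => phi (1 - noiseOp ε (ind f 1) y)) := by
    unfold bent; rw [avg_add]
  have D : ∀ v : ℤˣ, avg (fun x => phi (mixSlice ε (ind f 1) i v x))
      + avg (fun x => phi (1 - mixSlice ε (ind f 1) i v x)) = bent ε * avg (sens f i) := by
    intro v
    rw [← avg_add, ← avg_const_mul]
    congr 1; funext x
    exact bent_mixSlice ε f i v x
  have D1 := D 1
  have D2 := D (-1)
  rw [C]
  simp only [avg_mixSlice] at A B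
  unfold bent at *
  nlinarith [A, B, D1, D2]

end Vale.Agent.Lib.P322
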