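import Vale.Agent.Lib.P322.Info

/-!
The law of `(f(X), Y_i)` and the formula for `I(f(X);Y_i)`.
-/

namespace Vale.Agent.Lib.P322

open Finset

lemma noiseW (ε : ℝ) (s : ℤˣ) : (if s = -1 then ε else 1 - ε) = wt ε 1 s := by
  unfold wt
  rcases Int.units_eq_one_or s with rfl | rfl
  · have : (1 : ℤˣ) ≠ -1 := by decide
    simp [this]
  · have : (1 : ℤˣ) ≠ -1 := by decide
    simp [this]

lemma sum_noise (ε : ℝ) {m : ℕ} : ∑ z : Cube m, ∏ j, (if z j = -1 then ε else 1 - ε) = 1 := by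
  simp only [noiseW]
  exact sum_ker ε (1 : Cube m)

lemma wt_one_one (ε : ℝ) : wt ε 1 1 = 1 - ε := by simp [wt]
lemma wt_neg_neg (ε : ℝ) : wt ε (-1) (-1) = 1 - ε := by simp [wt]
lemma wt_one_neg (ε : ℝ) : wt ε 1 (-1) = ε := by
  have : (1 : ℤˣ) ≠ -1 := by decide
  simp [wt, this]
lemma wt_neg_one (ε : ℝ) : wt ε (-1) 1 = ε := by
  have : (-1 : ℤˣ) ≠ 1 := by decide
  simp [wt, this]

lemma marginal (ε : ℝ) {m : ℕ} (i : Fin (m + 1)) (s t : ℤˣ) :
    ∑ z : Cube (m + 1), (if s * z i = t then ∏ j, (if z j = -1 then ε else 1 - ε) else 0)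
      = wt ε s t := by
  rw [sum_cube_succ i]
  simp only [Fin.prod_univ_succAbove _ i, Fin.insertNth_apply_same,
    Fin.insertNth_apply_succAbove]
  have key : ∀ (c : Prop) [Decidable c] (w : ℝ),
      ∑ z : Cube m, (if c then w * ∏ j, (if z j = -1 then ε else 1 - ε) else 0)
        = if c then w else 0 := by
    intro c _ w
    split_ifs
    · rw [← Finset.mul_sum, sum_noise, mul_one]
    · simp
  rw [key, key]
  have ne : (1 : ℤˣ) ≠ -1 := by decide
  have ne' : (-1 : ℤˣ) ≠ 1 := by decide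
  rcases Int.units_eq_one_or s with rfl | rfl <;> rcases Int.units_eq_one_or t with rfl | rfl <;>
    simp [wt, ne, ne']

/-- Mixture of two numbers by the channel weights. -/
noncomputable def mix (ε : ℝ) (v : ℤˣ) (a b : ℝ) : ℝ := wt ε 1 v * a + wt ε (-1) v * b

lemma jointLaw_FYi (ε : ℝ) {m : ℕ} (f : Cube (m + 1) → ℤˣ) (i : Fin (m + 1)) (u t : ℤˣ) :
    jointLaw ε (fun ω : Cube (m + 1) × Cube (m + 1) => f ω.1) (fun ω => ω.1 i * ω.2 i) u t
      = (1 / 2 : ℝ) * mix ε t (avg (slice (ind f u) i 1)) (avg (slice (ind f u) i (-1))) := by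
  unfold jointLaw
  rw [Fintype.sum_prod_type]
  have inner : ∀ x : Cube (m + 1),
      ∑ z : Cube (m + 1), (if f x = u ∧ x i * z i = t then prob ε (x, z) else 0)
        = (1 / 2 : ℝ) ^ (m + 1) * (ind f u x * wt ε (x i) t) := by
    intro x
    rw [← marginal ε i (x i) t, Finset.mul_sum, Finset.mul_sum]
    apply Finset.sum_congr rfl
    intro z _
    unfold ind prob
    by_cases h1 : f x = u <;> by_cases h2 : x i * z i = t <;> simp [h1, h2]
  simp only [inner]
  rw [← Finset.mul_sum, sum_cube_succ i]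
  simp only [Fin.insertNth_apply_same]
  unfold mix avg slice
  rw [← Finset.sum_mul, ← Finset.sum_mul, pow_succ]
  ring

lemma slice_ind_neg {m : ℕ} (f : Cube (m + 1) → ℤˣ) (i : Fin (m + 1)) (v : ℤˣ) :
    slice (ind f (-1)) i v = fun x => 1 - slice (ind f 1) i v x := by
  funext x; unfold slice; exact ind_neg_one f _

lemma wt_sum' (ε : ℝ) (v : ℤˣ) : wt ε 1 v + wt ε (-1) v = 1 := by
  rcases Int.units_eq_one_or v with rfl | rfl
  · rw [wt_one_one, wt_neg_one]; ring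
  · rw [wt_one_neg, wt_neg_neg]; ring

lemma mix_one_sub (ε : ℝ) (v : ℤˣ) (a b : ℝ) : mix ε v (1 - a) (1 - b) = 1 - mix ε v a b := by
  unfold mix
  have := wt_sum' ε v
  linear_combination this

lemma mix_nonneg {ε : ℝ} (h0 : 0 ≤ ε) (h1 : ε ≤ 1) (v : ℤˣ) {a b : ℝ} (ha : 0 ≤ a) (hb : 0 ≤ b) :
    0 ≤ mix ε v a b :=
  add_nonneg (mul_nonneg (wt_nonneg h0 h1 _ _) ha) (mul_nonneg (wt_nonneg h0 h1 _ _) hb)

/-- Formula for `I(f(X);Y_i)` in nats. -/
lemma infoFYi_formula {ε : ℝ} (h0 : 0 ≤ ε) (h1 : ε ≤ 1) {m : ℕ} (f : Cube (m + 1) → ℤˣ)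
    (i : Fin (m + 1)) :
    infoFYi ε f i * Real.log 2 =
      (bent (mix ε 1 (avg (slice (ind f 1) i 1)) (avg (slice (ind f 1) i (-1))))
        + bent (mix ε (-1) (avg (slice (ind f 1) i 1)) (avg (slice (ind f 1) i (-1))))) / 2
      - bent (avg (ind f 1)) := by
  unfold infoFYi
  have hq : (0:ℝ) < 1 / 2 := by norm_num
  rw [mutualInfo_binary _ hq]
  · simp only [jointLaw_FYi]
    simp only [mul_div_cancel_left₀ _ hq.ne']
    simp only [slice_ind_neg, avg_one_sub, mix_one_sub]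
    rw [sum_units, sum_units, sum_units, avg_succ i (ind f 1)]
    unfold bent
    have e1 : (1 / 2 : ℝ) * mix ε 1 (avg (slice (ind f 1) i 1)) (avg (slice (ind f 1) i (-1)))
        + 1 / 2 * mix ε (-1) (avg (slice (ind f 1) i 1)) (avg (slice (ind f 1) i (-1)))
        = (avg (slice (ind f 1) i 1) + avg (slice (ind f 1) i (-1))) / 2 := by
      unfold mix; rw [wt_one_one, wt_neg_one, wt_one_neg, wt_neg_neg]; ring
    have e2 : (1 / 2 : ℝ) * (1 - mix ε 1 (avg (slice (ind f 1) i 1)) (avg (slice (ind f 1) i (-1))))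
        + 1 / 2 * (1 - mix ε (-1) (avg (slice (ind f 1) i 1)) (avg (slice (ind f 1) i (-1))))
        = 1 - (avg (slice (ind f 1) i 1) + avg (slice (ind f 1) i (-1))) / 2 := by
      unfold mix; rw [wt_one_one, wt_neg_one, wt_one_neg, wt_neg_neg]; ring
    rw [e1, e2]
    ring
  · intro u t
    rw [jointLaw_FYi]
    exact mul_nonneg hq.le (mix_nonneg h0 h1 t (avg_nonneg fun x => ind_nonneg f u _)
      (avg_nonneg fun x => ind_nonneg f u _))
  · intro t
    rw [jointLaw_FYi, jointLaw_FYi]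
    simp only [slice_ind_neg, avg_one_sub, mix_one_sub]
    ring

end Vale.Agent.Lib.P322
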