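import Vale.Agent.Lib.P322.InfluenceCor
import Vale.Agent.Lib.P322.Bessel

/-!
The coordinatewise inequality `∑ I(f(X);Y_i) ≤ 1 - h2(ε)` for all Boolean functions.
-/

namespace Vale.Agent.Lib.P322

open Finset

lemma coord_le {ε : ℝ} (h0 : 0 ≤ ε) (h1 : ε ≤ 1 / 2) {m : ℕ} (f : Cube (m + 1) → ℤˣ)
    (i : Fin (m + 1)) :
    infoFYi ε f i * Real.log 2 ≤
      (avg (fun x => ind f 1 x * chi i x)) ^ 2 / (avg (ind f 1) * (1 - avg (ind f 1)))
        * Lam (1 - 2 * ε) := by
  have he1 : ε ≤ 1 := by linarith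
  rw [infoFYi_formula h0 he1 f i, avg_mul_chi, avg_succ i (ind f 1)]
  obtain ⟨F1, F2, F3⟩ := avg_facts f i
  set Pp := avg (slice (ind f 1) i 1) with hPp
  set Pm := avg (slice (ind f 1) i (-1)) with hPm
  set J := avg (sens f i) with hJ
  set r := 1 - 2 * ε with hr
  have hr0 : 0 ≤ r := by linarith
  have hr1 : r ≤ 1 := by linarith
  set a := (Pp + Pm) / 2 with ha
  set c := (Pp - Pm) / 2 with hc
  have hca : |c| ≤ a ∧ |c| ≤ 1 - a := by
    have h2 : |Pp - Pm| ≤ 1 - |Pp + Pm - 1| := by linarith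
    have h3 := le_abs_self (Pp + Pm - 1)
    have h4 := neg_abs_le (Pp + Pm - 1)
    have h5 : |c| = |Pp - Pm| / 2 := by rw [hc, abs_div]; norm_num
    rw [h5, ha]
    constructor <;> linarith
  have m1 : mix ε 1 Pp Pm = a + r * c := by
    unfold mix; rw [wt_one_one, wt_neg_one, ha, hc, hr]; ring
  have m2 : mix ε (-1) Pp Pm = a - r * c := by
    unfold mix; rw [wt_one_neg, wt_neg_neg, ha, hc, hr]; ring
  rw [m1, m2]
  have ha0 : 0 ≤ a := le_trans (abs_nonneg c) hca.1
  have ha1 : 0 ≤ 1 - a := le_trans (abs_nonneg c) hca.2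
  rcases ha0.eq_or_lt with hz | hpos
  · have hc0 : c = 0 := by
      have := hca.1; rw [← hz] at this; exact abs_nonpos_iff.1 this
    simp [← hz, hc0]
  rcases ha1.eq_or_lt with hz | hpos'
  · have hc0 : c = 0 := by
      have := hca.2; rw [← hz] at this; exact abs_nonpos_iff.1 this
    simp [← hz, hc0]
  have E1 : (phi (a + r * c) + phi (a - r * c)) / 2 = phi a + a * Lam (r * c / a) := by
    rw [← ent2_eq]; congr 2 <;> congr 1 <;> field_simp
  have E2 : (phi (1 - (a + r * c)) + phi (1 - (a - r * c))) / 2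
      = phi (1 - a) + (1 - a) * Lam (r * c / (1 - a)) := by
    rw [← ent2_eq, add_comm (phi (1 - (a + r * c)))]
    congr 2 <;> congr 1 <;> field_simp <;> ring
  have C1 := chord hpos hca.1 hr0 hr1
  have C2 := chord hpos' hca.2 hr0 hr1
  have e : c ^ 2 / (a * (1 - a)) * Lam r = c ^ 2 / a * Lam r + c ^ 2 / (1 - a) * Lam r := by
    field_simp; ring
  rw [e]
  unfold bent
  linarith

lemma ind_sq {n : ℕ} (f : Cube n → ℤˣ) (x : Cube n) : ind f 1 x ^ 2 = ind f 1 x := by
  rcases ind_zero_or_one f 1 x with a | a <;> simp [a]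

/-- The coordinatewise inequality for all Boolean functions. -/
theorem coordinatewise {ε : ℝ} (h0 : 0 ≤ ε) (h1 : ε ≤ 1 / 2) {n : ℕ} (f : Cube n → ℤˣ) :
    ∑ i, infoFYi ε f i ≤ 1 - h2 ε := by
  have hl : 0 < Real.log 2 := by positivity
  have hr0 : 0 ≤ 1 - 2 * ε := by linarith
  have hr1 : 1 - 2 * ε ≤ 1 := by linarith
  have hL := Lam_nonneg hr0 hr1
  rw [one_sub_h2, le_div_iff₀ hl, Finset.sum_mul]
  cases n with
  | zero => simpa using hL
  | succ m =>
    refine le_trans (Finset.sum_le_sum fun i _ => coord_le h0 h1 f i) ?_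
    rw [← Finset.sum_mul, ← Finset.sum_div]
    have B := bessel (ind f 1)
    simp only [ind_sq] at B
    set a := avg (ind f 1) with ha
    have hB : ∑ i, (avg (fun x => ind f 1 x * chi i x)) ^ 2 ≤ a * (1 - a) := by
      linarith
    have hS : 0 ≤ ∑ i, (avg (fun x => ind f 1 x * chi i x)) ^ 2 :=
      Finset.sum_nonneg fun i _ => sq_nonneg _
    have hle : (∑ i, (avg (fun x => ind f 1 x * chi i x)) ^ 2) / (a * (1 - a)) ≤ 1 :=
      div_le_one_of_le₀ hB (le_trans hS hB)
    nlinarith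

end Vale.Agent.Lib.P322
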