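import Mathlib

/-!
Definitions for P322 (the Courtade-Kumar conjecture), following the conventions of the problem file.
-/

namespace Vale.Agent.Lib.P322

/-- The discrete cube `{-1,1}^n`; the two signs `1`, `-1` are the units of `ℤ`. -/
abbrev Cube (n : ℕ) : Type := Fin n → ℤˣ

/-- Binary entropy in bits: `h2 p = -p log_2 p - (1-p) log_2 (1-p)`. -/
noncomputable def h2 (p : ℝ) : ℝ := Real.binEntropy p / Real.log 2

/-- Probability of the outcome `(X, Z) = (x, z)`: `X` is uniform on the cube and `Z` is independent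
of `X`, with independent coordinates and `P(Z_i = -1) = ε`. -/
noncomputable def prob (ε : ℝ) {n : ℕ} (ω : Cube n × Cube n) : ℝ :=
  (1 / 2 : ℝ) ^ n * ∏ i, (if ω.2 i = -1 then ε else 1 - ε)

/-- Joint law of two random variables `A`, `B` defined on the sample space of `(X, Z)`. -/
noncomputable def jointLaw (ε : ℝ) {n : ℕ} {α β : Type} [DecidableEq α] [DecidableEq β]
    (A : Cube n × Cube n → α) (B : Cube n × Cube n → β) (a : α) (b : β) : ℝ :=
  ∑ ω, if A ω = a ∧ B ω = b then prob ε ω else 0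

/-- Mutual information, in bits, of a joint law `p` on a finite product:
`∑ p(a,b) log_2 (p(a,b) / (p_A(a) p_B(b)))`. -/
noncomputable def mutualInfo {α β : Type} [Fintype α] [Fintype β] (p : α → β → ℝ) : ℝ :=
  ∑ a, ∑ b, p a b * Real.logb 2 (p a b / ((∑ b', p a b') * (∑ a', p a' b)))

/-- `I(f(X); Y)` in bits, where `Y = X * Z` coordinatewise. -/
noncomputable def infoFY (ε : ℝ) {n : ℕ} (f : Cube n → ℤˣ) : ℝ :=
  mutualInfo (jointLaw ε (fun ω => f ω.1) (fun ω => ω.1 * ω.2))

/-- `I(f(X); Y_i)` in bits, where `Y_i = X_i * Z_i`. -/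
noncomputable def infoFYi (ε : ℝ) {n : ℕ} (f : Cube n → ℤˣ) (i : Fin n) : ℝ :=
  mutualInfo (jointLaw ε (fun ω => f ω.1) (fun ω => ω.1 i * ω.2 i))

/-- The influence of coordinate `i` on `f`: the probability that flipping `X_i` changes `f(X)`. -/
noncomputable def influence {n : ℕ} (f : Cube n → ℤˣ) (i : Fin n) : ℝ :=
  (1 / 2 : ℝ) ^ n *
    ((Finset.univ.filter fun x : Cube n => f (Function.update x i (-x i)) ≠ f x).card : ℝ)

/-- `P(f(X) = 1)`. -/
noncomputable def probOne {n : ℕ} (f : Cube n → ℤˣ) : ℝ :=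
  (1 / 2 : ℝ) ^ n * ((Finset.univ.filter fun x : Cube n => f x = 1).card : ℝ)

end Vale.Agent.Lib.P322
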