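import Vale.Agent.Lib.P322.TwoPoint
import Vale.Agent.Lib.P322.Defs

/-!
Averages, the noise kernel and the noise operator on the cube.
-/

namespace Vale.Agent.Lib.P322

open Finset

/-- Average over the cube. -/
noncomputable def avg {n : ℕ} (g : Cube n → ℝ) : ℝ := (1 / 2 : ℝ) ^ n * ∑ x, g x

/-- One-coordinate transition weight of the binary symmetric channel. -/
noncomputable def wt (ε : ℝ) (s t : ℤˣ) : ℝ := if s = t then 1 - ε else ε

/-- Transition kernel of `n` independent binary symmetric channels. -/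
noncomputable def ker (ε : ℝ) {n : ℕ} (x y : Cube n) : ℝ := ∏ i, wt ε (x i) (y i)

/-- The noise operator. -/
noncomputable def noiseOp (ε : ℝ) {n : ℕ} (g : Cube n → ℝ) (y : Cube n) : ℝ :=
  ∑ x, g x * ker ε x y

/-- Restriction of a function to a face of the cube. -/
def slice {m : ℕ} (g : Cube (m + 1) → ℝ) (i : Fin (m + 1)) (u : ℤˣ) : Cube m → ℝ :=
  fun x' => g (Fin.insertNth i u x')

lemma sum_units (F : ℤˣ → ℝ) : ∑ u, F u = F 1 + F (-1) := by
  rw [UnitsInt.univ]; exact Finset.sum_pair (by decide)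

lemma sum_cube_succ {m : ℕ} (i : Fin (m + 1)) (F : Cube (m + 1) → ℝ) :
    ∑ x, F x = ∑ x' : Cube m, F (Fin.insertNth i 1 x') + ∑ x' : Cube m, F (Fin.insertNth i (-1) x') := by
  have := Fintype.sum_equiv (Fin.insertNthEquiv (fun _ => ℤˣ) i)
    (fun p => F (Fin.insertNth i p.1 p.2)) F (fun p => rfl)
  rw [← this, Fintype.sum_prod_type, sum_units]

lemma ker_insertNth (ε : ℝ) {m : ℕ} (i : Fin (m + 1)) (u v : ℤˣ) (x' y' : Cube m) :
    ker ε (Fin.insertNth i u x' : Cube (m + 1)) (Fin.insertNth i v y') = wt ε u v * ker ε x' y' := by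
  unfold ker
  rw [Fin.prod_univ_succAbove _ i]
  simp

lemma avg_succ {m : ℕ} (i : Fin (m + 1)) (g : Cube (m + 1) → ℝ) :
    avg g = (avg (slice g i 1) + avg (slice g i (-1))) / 2 := by
  unfold avg slice
  rw [sum_cube_succ i, pow_succ]; ring

lemma noiseOp_insertNth (ε : ℝ) {m : ℕ} (i : Fin (m + 1)) (g : Cube (m + 1) → ℝ) (v : ℤˣ)
    (y' : Cube m) :
    noiseOp ε g (Fin.insertNth i v y') =
      wt ε 1 v * noiseOp ε (slice g i 1) y' + wt ε (-1) v * noiseOp ε (slice g i (-1)) y' := by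
  unfold noiseOp slice
  rw [sum_cube_succ i]
  simp only [ker_insertNth, Finset.mul_sum]
  congr 1 <;> exact Finset.sum_congr rfl (fun x _ => by ring)

lemma avg_add {n : ℕ} (g h : Cube n → ℝ) : avg (fun x => g x + h x) = avg g + avg h := by
  unfold avg; rw [Finset.sum_add_distrib]; ring

lemma avg_sub {n : ℕ} (g h : Cube n → ℝ) : avg (fun x => g x - h x) = avg g - avg h := by
  unfold avg; rw [Finset.sum_sub_distrib]; ring

lemma avg_const_mul {n : ℕ} (c : ℝ) (g : Cube n → ℝ) : avg (fun x => c * g x) = c * avg g := by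
  unfold avg; rw [← Finset.mul_sum]; ring

lemma avg_mul_const {n : ℕ} (c : ℝ) (g : Cube n → ℝ) : avg (fun x => g x * c) = avg g * c := by
  unfold avg; rw [← Finset.sum_mul]; ring

lemma avg_div_const {n : ℕ} (c : ℝ) (g : Cube n → ℝ) : avg (fun x => g x / c) = avg g / c := by
  unfold avg; rw [← Finset.sum_div]; ring

lemma card_cube (n : ℕ) : Fintype.card (Cube n) = 2 ^ n := by
  simp [Cube]

lemma avg_const {n : ℕ} (c : ℝ) : avg (fun _ : Cube n => c) = c := by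
  unfold avg
  rw [Finset.sum_const, Finset.card_univ, card_cube, nsmul_eq_mul]
  push_cast
  rw [← mul_assoc, ← mul_pow]; norm_num

lemma avg_mono {n : ℕ} {g h : Cube n → ℝ} (hgh : ∀ x, g x ≤ h x) : avg g ≤ avg h := by
  unfold avg
  exact mul_le_mul_of_nonneg_left (Finset.sum_le_sum fun x _ => hgh x) (by positivity)

lemma avg_nonneg {n : ℕ} {g : Cube n → ℝ} (hg : ∀ x, 0 ≤ g x) : 0 ≤ avg g := by
  unfold avg
  exact mul_nonneg (by positivity) (Finset.sum_nonneg fun x _ => hg x)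

lemma avg_pos_of {n : ℕ} {g : Cube n → ℝ} (hg : ∀ x, 0 ≤ g x) {x : Cube n} (hx : 0 < g x) :
    0 < avg g := by
  unfold avg
  exact mul_pos (by positivity) (Finset.sum_pos' (fun x _ => hg x) ⟨x, Finset.mem_univ x, hx⟩)

lemma eq_zero_of_avg_eq_zero {n : ℕ} {g : Cube n → ℝ} (hg : ∀ x, 0 ≤ g x) (h : avg g = 0)
    (x : Cube n) : g x = 0 := by
  by_contra hne
  have : 0 < g x := lt_of_le_of_ne (hg x) (Ne.symm hne)
  have := avg_pos_of hg this
  linarith

lemma wt_nonneg {ε : ℝ} (h0 : 0 ≤ ε) (h1 : ε ≤ 1) (s t : ℤˣ) : 0 ≤ wt ε s t := by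
  unfold wt; split_ifs <;> linarith

lemma ker_nonneg {ε : ℝ} (h0 : 0 ≤ ε) (h1 : ε ≤ 1) {n : ℕ} (x y : Cube n) : 0 ≤ ker ε x y :=
  Finset.prod_nonneg fun _ _ => wt_nonneg h0 h1 _ _

lemma noiseOp_nonneg {ε : ℝ} (h0 : 0 ≤ ε) (h1 : ε ≤ 1) {n : ℕ} {g : Cube n → ℝ}
    (hg : ∀ x, 0 ≤ g x) (y : Cube n) : 0 ≤ noiseOp ε g y :=
  Finset.sum_nonneg fun x _ => mul_nonneg (hg x) (ker_nonneg h0 h1 x y)

lemma noiseOp_add (ε : ℝ) {n : ℕ} (g h : Cube n → ℝ) (y : Cube n) :
    noiseOp ε (fun x => g x + h x) y = noiseOp ε g y + noiseOp ε h y := by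
  unfold noiseOp; rw [← Finset.sum_add_distrib]
  exact Finset.sum_congr rfl fun x _ => by ring

lemma noiseOp_const_mul (ε : ℝ) {n : ℕ} (c : ℝ) (g : Cube n → ℝ) (y : Cube n) :
    noiseOp ε (fun x => c * g x) y = c * noiseOp ε g y := by
  unfold noiseOp; rw [Finset.mul_sum]
  exact Finset.sum_congr rfl fun x _ => by ring

lemma wt_comm (ε : ℝ) (s t : ℤˣ) : wt ε s t = wt ε t s := by
  unfold wt; simp [eq_comm]

lemma ker_comm (ε : ℝ) {n : ℕ} (x y : Cube n) : ker ε x y = ker ε y x :=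
  Finset.prod_congr rfl fun _ _ => wt_comm ε _ _

lemma sum_wt (ε : ℝ) (s : ℤˣ) : ∑ t, wt ε s t = 1 := by
  rw [sum_units]
  rcases Int.units_eq_one_or s with rfl | rfl
  · have : (1 : ℤˣ) ≠ -1 := by decide
    simp [wt, this]
  · have : (-1 : ℤˣ) ≠ 1 := by decide
    simp [wt, this]

lemma sum_ker (ε : ℝ) {n : ℕ} (x : Cube n) : ∑ y, ker ε x y = 1 := by
  unfold ker
  have := Finset.prod_univ_sum (fun _ : Fin n => (Finset.univ : Finset ℤˣ))
    (fun i t => wt ε (x i) t)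
  rw [Fintype.piFinset_univ] at this
  rw [← this]
  exact Finset.prod_eq_one fun i _ => sum_wt ε (x i)

lemma sum_ker' (ε : ℝ) {n : ℕ} (y : Cube n) : ∑ x, ker ε x y = 1 := by
  simp_rw [ker_comm ε _ y]; exact sum_ker ε y

lemma avg_noiseOp (ε : ℝ) {n : ℕ} (g : Cube n → ℝ) : avg (noiseOp ε g) = avg g := by
  unfold avg noiseOp
  rw [Finset.sum_comm]
  congr 1
  exact Finset.sum_congr rfl fun x _ => by rw [← Finset.mul_sum, sum_ker, mul_one]

lemma noiseOp_const (ε : ℝ) {n : ℕ} (c : ℝ) (y : Cube n) :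
    noiseOp ε (fun _ => c) y = c := by
  unfold noiseOp; rw [← Finset.mul_sum, sum_ker', mul_one]

end Vale.Agent.Lib.P322
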