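import Vale.Agent.Lib.P322.InfluenceThm

/-!
Consequences of the influence bound: the conjectured inequality for functions with an
influential coordinate.
-/

namespace Vale.Agent.Lib.P322

open Finset

lemma influence_mem {n : ℕ} (f : Cube n → ℤˣ) (i : Fin n) :
    0 ≤ influence f i ∧ influence f i ≤ 1 := by
  cases n with
  | zero => exact i.elim0
  | succ m =>
    obtain ⟨_, F2, F3⟩ := avg_facts f i
    rw [influence_eq]
    refine ⟨F3, ?_⟩
    have := abs_nonneg (avg (slice (ind f 1) i 1) + avg (slice (ind f 1) i (-1)) - 1)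
    linarith

lemma one_sub_h2 (ε : ℝ) : 1 - h2 ε = Lam (1 - 2 * ε) / Real.log 2 := by
  have hl : Real.log 2 ≠ 0 := by positivity
  unfold h2
  rw [Lam_eq_binEntropy]
  field_simp

/-- The conjectured inequality under the entropy form of the influence condition. -/
theorem conj_of_influence {ε : ℝ} (h0 : 0 ≤ ε) (h1 : ε ≤ 1 / 2) {n : ℕ} (f : Cube n → ℤˣ)
    (i : Fin n)
    (hyp : (1 - 2 * ε) ^ 2 ≤ (1 - h2 ε) * (1 + 4 * ε * (1 - ε) * influence f i)) :
    infoFY ε f ≤ 1 - h2 ε := by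
  have hl : 0 < Real.log 2 := by positivity
  obtain ⟨J0, J1⟩ := influence_mem f i
  have B := influence_bound h0 h1 f i
  set J := influence f i with hJ
  set r := 1 - 2 * ε with hr
  have hr0 : 0 ≤ r := by linarith
  have hr1 : r ≤ 1 := by linarith
  have e1 : h2 ε = 1 - Lam r / Real.log 2 := by
    have := one_sub_h2 ε; rw [← hr] at this; linarith
  have e2 : h2 ((1 + r * J) / 2) = 1 - Lam (r * J) / Real.log 2 := by
    have := one_sub_h2 ((1 + r * J) / 2)
    rw [show 1 - 2 * ((1 + r * J) / 2) = -(r * J) by ring, Lam_neg] at this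
    linarith
  have e3 : 4 * ε * (1 - ε) = 1 - r ^ 2 := by rw [hr]; ring
  rw [e3, e1] at hyp
  rw [e1, e2] at B
  rw [e1]
  have M : Lam (r * J) ≤ J ^ 2 * Lam r := by
    rw [mul_comm r J]; exact Lam_mul_le J0 J1 hr0 hr1
  have hyp' : r ^ 2 * Real.log 2 ≤ Lam r * (1 + (1 - r ^ 2) * J) := by
    have : (1 - (1 - Lam r / Real.log 2)) * (1 + (1 - r ^ 2) * J) * Real.log 2
        = Lam r * (1 + (1 - r ^ 2) * J) := by field_simp; ring
    rw [← this]
    exact mul_le_mul_of_nonneg_right hyp hl.le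
  have hr3 : 0 ≤ 1 - r ^ 2 := by nlinarith
  have goal_nats : r ^ 2 * Real.log 2 + (1 - r ^ 2) * Lam (r * J) + r ^ 2 * J * (Lam r - Real.log 2)
      ≤ Lam r := by
    have h4 := mul_le_mul_of_nonneg_left M hr3
    have h5 := mul_le_mul_of_nonneg_left hyp' (sub_nonneg.2 J1)
    nlinarith
  have conv : 1 - (1 - r ^ 2) * (1 - Lam (r * J) / Real.log 2)
        - r ^ 2 * J * (1 - Lam r / Real.log 2)
      = (r ^ 2 * Real.log 2 + (1 - r ^ 2) * Lam (r * J) + r ^ 2 * J * (Lam r - Real.log 2))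
          / Real.log 2 := by
    field_simp; ring
  rw [conv] at B
  refine le_trans B ?_
  rw [show 1 - (1 - Lam r / Real.log 2) = Lam r / Real.log 2 by ring]
  exact div_le_div_of_nonneg_right goal_nats hl.le

/-- The conjectured inequality under the closed form of the influence condition. -/
theorem conj_of_influence' {ε : ℝ} (h0 : 0 ≤ ε) (h1 : ε ≤ 1 / 2) {n : ℕ} (f : Cube n → ℤˣ)
    (i : Fin n) (hyp : 2 * Real.log 2 - 1 ≤ 4 * ε * (1 - ε) * influence f i) :
    infoFY ε f ≤ 1 - h2 ε := by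
  apply conj_of_influence h0 h1 f i
  have hl : 0 < Real.log 2 := by positivity
  rw [one_sub_h2]
  have hr0 : 0 ≤ 1 - 2 * ε := by linarith
  have hr1 : 1 - 2 * ε ≤ 1 := by linarith
  have L := Lam_ge_sq hr0 hr1
  rw [div_mul_eq_mul_div, le_div_iff₀ hl]
  have h2 : 2 * Real.log 2 ≤ 1 + 4 * ε * (1 - ε) * influence f i := by linarith
  have h3 : 0 ≤ (1 - 2 * ε) ^ 2 := by positivity
  nlinarith [mul_le_mul_of_nonneg_left h2 h3, mul_le_mul_of_nonneg_right L (le_trans (by positivity) h2)]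

end Vale.Agent.Lib.P322
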