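import Vale.Agent.Lib.P322.TwoPoint

/-!
The inequality `(1 - r^2) ((Lam (u + r b) + Lam (u - r b)) / 2 - Lam (r b)) ≤ Lam u` for `|u| + |b| ≤ 1`.
-/

namespace Vale.Agent.Lib.P322

open Real Set

/-- Second derivative test on `[0,T)`. -/
lemma nonneg_of_deriv2' {T : ℝ} {D D1 D2 : ℝ → ℝ}
    (h1 : ∀ t ∈ Ico (0:ℝ) T, HasDerivAt D (D1 t) t)
    (h2 : ∀ t ∈ Ico (0:ℝ) T, HasDerivAt D1 (D2 t) t)
    (h3 : ∀ t ∈ Ico (0:ℝ) T, 0 ≤ D2 t) (h0 : D 0 = 0) (h10 : D1 0 = 0) :
    ∀ t ∈ Ico (0:ℝ) T, 0 ≤ D t := by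
  intro t ht
  have hT : 0 < T := lt_of_le_of_lt ht.1 ht.2
  have z : (0:ℝ) ∈ Ico (0:ℝ) T := ⟨le_refl _, hT⟩
  have hsub : interior (Ico (0:ℝ) T) ⊆ Ico (0:ℝ) T := interior_subset
  have m1 : MonotoneOn D1 (Ico (0:ℝ) T) := by
    apply monotoneOn_of_deriv_nonneg (convex_Ico 0 T)
    · intro t ht; exact (h2 t ht).continuousAt.continuousWithinAt
    · intro t ht; exact (h2 t (hsub ht)).differentiableAt.differentiableWithinAt
    · intro t ht; rw [(h2 t (hsub ht)).deriv]; exact h3 t (hsub ht)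
  have p1 : ∀ t ∈ Ico (0:ℝ) T, 0 ≤ D1 t := by
    intro t ht
    have := m1 z ht ht.1
    linarith
  have m0 : MonotoneOn D (Ico (0:ℝ) T) := by
    apply monotoneOn_of_deriv_nonneg (convex_Ico 0 T)
    · intro t ht; exact (h1 t ht).continuousAt.continuousWithinAt
    · intro t ht; exact (h1 t (hsub ht)).differentiableAt.differentiableWithinAt
    · intro t ht; rw [(h1 t (hsub ht)).deriv]; exact p1 t (hsub ht)
  have := m0 z ht ht.1
  linarith

lemma nonneg_Icc_of_Ico' {T : ℝ} (hT : 0 < T) {D : ℝ → ℝ} (hc : Continuous D)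
    (h : ∀ t ∈ Ico (0:ℝ) T, 0 ≤ D t) : ∀ t ∈ Icc (0:ℝ) T, 0 ≤ D t := by
  have hcl : IsClosed {t : ℝ | 0 ≤ D t} := isClosed_le continuous_const hc
  have hsub : Ico (0:ℝ) T ⊆ {t : ℝ | 0 ≤ D t} := h
  have := closure_minimal hsub hcl
  rw [closure_Ico hT.ne] at this
  exact this

lemma Lam1_neg (t : ℝ) : Lam1 (-t) = -Lam1 t := by
  unfold Lam1
  rw [show 1 + -t = 1 - t by ring, show 1 - -t = 1 + t by ring]; ring

lemma rat_ineq {r s b : ℝ} (hr0 : 0 ≤ r) (hr1 : r ≤ 1) (hs : 0 ≤ s) (hb : 0 ≤ b) (hsb : s + b < 1) :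
    (1 - r ^ 2) * ((1 / (1 - (s + r * b) ^ 2) + 1 / (1 - (s - r * b) ^ 2)) / 2)
      ≤ 1 / (1 - s ^ 2) := by
  have hrb : r * b ≤ b := by nlinarith
  have hrb0 : 0 ≤ r * b := mul_nonneg hr0 hb
  have hP : 0 < 1 - (s + r * b) ^ 2 := by nlinarith
  have hQ : 0 < 1 - (s - r * b) ^ 2 := by nlinarith
  have hA : 0 < 1 - s ^ 2 := by nlinarith
  rw [div_add_div _ _ hP.ne' hQ.ne', div_div, ← mul_div_assoc, div_le_div_iff₀ (by positivity) hA]
  have h1 : 0 ≤ 1 - s ^ 2 - b ^ 2 - 2 * s * b := by nlinarith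
  have h2 : 0 ≤ (1 - s ^ 2 - b ^ 2) ^ 2 - (2 * s * b) ^ 2 := by
    have : (1 - s ^ 2 - b ^ 2) ^ 2 - (2 * s * b) ^ 2
        = (1 - s ^ 2 - b ^ 2 - 2 * s * b) * (1 - s ^ 2 - b ^ 2 + 2 * s * b) := by ring
    rw [this]
    exact mul_nonneg h1 (by nlinarith [mul_nonneg hs hb])
  have h3 : 0 ≤ (1 - r ^ 2) * b ^ 2 * (1 - s ^ 2 - b ^ 2) := by
    apply mul_nonneg (mul_nonneg (by nlinarith) (by positivity))
    nlinarith [mul_nonneg hs hb]
  have key : 1 * ((1 - (s + r * b) ^ 2) * (1 - (s - r * b) ^ 2) * 2)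
      - (1 - r ^ 2) * (1 * (1 - (s - r * b) ^ 2) + (1 - (s + r * b) ^ 2) * 1) * (1 - s ^ 2)
      = 2 * r ^ 2 * (((1 - s ^ 2 - b ^ 2) ^ 2 - (2 * s * b) ^ 2)
          + (1 - r ^ 2) * b ^ 2 * (1 - s ^ 2 - b ^ 2)) := by ring
  have : 0 ≤ 2 * r ^ 2 * (((1 - s ^ 2 - b ^ 2) ^ 2 - (2 * s * b) ^ 2)
          + (1 - r ^ 2) * b ^ 2 * (1 - s ^ 2 - b ^ 2)) := by positivity
  linarith

lemma keyMu_pos {r u b : ℝ} (hr0 : 0 ≤ r) (hr1 : r ≤ 1) (hu : 0 ≤ u) (hb : 0 ≤ b)
    (hub : u + b ≤ 1) :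
    (1 - r ^ 2) * ((Lam (u + r * b) + Lam (u - r * b)) / 2 - Lam (r * b)) ≤ Lam u := by
  rcases hu.eq_or_lt with h | hupos
  · subst h
    simp [Lam_neg]
  have hT : 0 < 1 - b := by linarith
  have hrb : r * b ≤ b := by nlinarith
  have hrb0 : 0 ≤ r * b := mul_nonneg hr0 hb
  have key : ∀ s ∈ Icc (0:ℝ) (1 - b),
      0 ≤ Lam s - (1 - r ^ 2) * ((Lam (s + r * b) + Lam (s - r * b)) / 2 - Lam (r * b)) := by
    apply nonneg_Icc_of_Ico' hT
    · have c1 : Continuous fun s : ℝ => Lam (s + r * b) := continuous_Lam.comp (by fun_prop)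
      have c2 : Continuous fun s : ℝ => Lam (s - r * b) := continuous_Lam.comp (by fun_prop)
      exact continuous_Lam.sub ((((c1.add c2).div_const 2).sub continuous_const).const_mul _)
    · apply nonneg_of_deriv2'
        (D1 := fun s => Lam1 s - (1 - r ^ 2) * ((Lam1 (s + r * b) + Lam1 (s - r * b)) / 2))
        (D2 := fun s => 1 / (1 - s ^ 2)
          - (1 - r ^ 2) * ((1 / (1 - (s + r * b) ^ 2) + 1 / (1 - (s - r * b) ^ 2)) / 2))
      · intro s hs
        have a := hasDerivAt_Lam (t := s) (by linarith [hs.1]) (by linarith [hs.2])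
        have b1 : HasDerivAt (fun s => Lam (s + r * b)) (Lam1 (s + r * b)) s := by
          have := (hasDerivAt_Lam (t := s + r * b) (by linarith [hs.1]) (by linarith [hs.2])).comp s
            ((hasDerivAt_id s).add_const (r * b))
          simpa [Function.comp_def] using this
        have b2 : HasDerivAt (fun s => Lam (s - r * b)) (Lam1 (s - r * b)) s := by
          have := (hasDerivAt_Lam (t := s - r * b) (by linarith [hs.1]) (by linarith [hs.2])).comp s
            ((hasDerivAt_id s).sub_const (r * b))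
          simpa [Function.comp_def] using this
        exact a.sub ((((b1.add b2).div_const 2).sub_const _).const_mul _)
      · intro s hs
        have a := hasDerivAt_Lam1 (t := s) (by linarith [hs.1]) (by linarith [hs.2])
        have b1 : HasDerivAt (fun s => Lam1 (s + r * b)) (1 / (1 - (s + r * b) ^ 2)) s := by
          have := (hasDerivAt_Lam1 (t := s + r * b) (by linarith [hs.1]) (by linarith [hs.2])).comp s
            ((hasDerivAt_id s).add_const (r * b))
          simpa [Function.comp_def] using this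
        have b2 : HasDerivAt (fun s => Lam1 (s - r * b)) (1 / (1 - (s - r * b) ^ 2)) s := by
          have := (hasDerivAt_Lam1 (t := s - r * b) (by linarith [hs.1]) (by linarith [hs.2])).comp s
            ((hasDerivAt_id s).sub_const (r * b))
          simpa [Function.comp_def] using this
        exact a.sub (((b1.add b2).div_const 2).const_mul _)
      · intro s hs
        have := rat_ineq hr0 hr1 hs.1 hb (by linarith [hs.2])
        linarith
      · simp [Lam_neg]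
      · simp [Lam1_neg]
  have := key u ⟨hu, by linarith⟩
  linarith

/-- The key inequality in the mean `u`. -/
lemma keyMu {r u b : ℝ} (hr0 : 0 ≤ r) (hr1 : r ≤ 1) (hub : |u| + |b| ≤ 1) :
    (1 - r ^ 2) * ((Lam (u + r * b) + Lam (u - r * b)) / 2 - Lam (r * |b|)) ≤ Lam u := by
  have h := keyMu_pos hr0 hr1 (abs_nonneg u) (abs_nonneg b) hub
  have e1 : Lam |u| = Lam u := by
    rcases abs_cases u with ⟨h, _⟩ | ⟨h, _⟩ <;> rw [h]
    exact Lam_neg u
  have e2 : Lam (|u| + r * |b|) + Lam (|u| - r * |b|) = Lam (u + r * b) + Lam (u - r * b) := by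
    rcases abs_cases u with ⟨h, _⟩ | ⟨h, _⟩ <;> rcases abs_cases b with ⟨h', _⟩ | ⟨h', _⟩ <;>
      rw [h, h']
    · rw [show u + r * -b = u - r * b by ring, show u - r * -b = u + r * b by ring]; ring
    · rw [show -u + r * b = -(u - r * b) by ring, show -u - r * b = -(u + r * b) by ring,
        Lam_neg, Lam_neg]; ring
    · rw [show -u + r * -b = -(u + r * b) by ring, show -u - r * -b = -(u - r * b) by ring,
        Lam_neg, Lam_neg]
  rw [e1, e2] at h
  exact h

end Vale.Agent.Lib.P322
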