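import Vale.Agent.Lib.P322.Bound
import Vale.Agent.Lib.P322.KeyMu

/-!
The influence bound
`I(f(X);Y) ≤ 1 - (1-r^2) h2((1 + r J)/2) - r^2 J h2(ε)`, `J = Inf_i(f)`, `r = 1 - 2ε`.
-/

namespace Vale.Agent.Lib.P322

open Finset

lemma Lam_mono {s t : ℝ} (hs : 0 ≤ s) (hst : s ≤ t) (ht : t ≤ 1) : Lam s ≤ Lam t := by
  rcases (le_trans hs hst).eq_or_lt with h | h
  · have : s = 0 := by linarith
    rw [this, ← h]
  · have h1 := Lam_mul_le (l := s / t) (t := t) (by positivity) (by rw [div_le_one h]; exact hst)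
      h.le ht
    rw [div_mul_cancel₀ _ h.ne'] at h1
    have h2 : (s / t) ^ 2 ≤ 1 := by
      have : s / t ≤ 1 := by rw [div_le_one h]; exact hst
      have h0 : 0 ≤ s / t := by positivity
      nlinarith
    have h3 := Lam_nonneg h.le ht
    nlinarith

lemma bent_eq_Lam (x : ℝ) : bent x = Lam (2 * x - 1) - Real.log 2 := by
  have := Lam_eq_binEntropy x
  rw [← Lam_neg, show -(1 - 2 * x) = 2 * x - 1 by ring] at this
  rw [bent_eq_neg_binEntropy, this]; ring

lemma sens_facts {m : ℕ} (f : Cube (m + 1) → ℤˣ) (i : Fin (m + 1)) (x' : Cube m) :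
    slice (ind f 1) i 1 x' - slice (ind f 1) i (-1) x' ≤ sens f i x' ∧
    slice (ind f 1) i (-1) x' - slice (ind f 1) i 1 x' ≤ sens f i x' ∧
    sens f i x' ≤ slice (ind f 1) i 1 x' + slice (ind f 1) i (-1) x' ∧
    sens f i x' ≤ 2 - (slice (ind f 1) i 1 x' + slice (ind f 1) i (-1) x') ∧
    0 ≤ sens f i x' := by
  unfold sens slice
  rcases ind_zero_or_one f 1 (Fin.insertNth i 1 x') with a | a <;>
  rcases ind_zero_or_one f 1 (Fin.insertNth i (-1) x') with b | b <;>
  simp [a, b] <;> norm_num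

lemma avg_facts {m : ℕ} (f : Cube (m + 1) → ℤˣ) (i : Fin (m + 1)) :
    |avg (slice (ind f 1) i 1) - avg (slice (ind f 1) i (-1))| ≤ avg (sens f i) ∧
    |avg (slice (ind f 1) i 1) + avg (slice (ind f 1) i (-1)) - 1| + avg (sens f i) ≤ 1 ∧
    0 ≤ avg (sens f i) := by
  have h1 : avg (slice (ind f 1) i 1) - avg (slice (ind f 1) i (-1)) ≤ avg (sens f i) := by
    rw [← avg_sub]; exact avg_mono fun x => (sens_facts f i x).1
  have h2 : avg (slice (ind f 1) i (-1)) - avg (slice (ind f 1) i 1) ≤ avg (sens f i) := by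
    rw [← avg_sub]; exact avg_mono fun x => (sens_facts f i x).2.1
  have h3 : avg (sens f i) ≤ avg (slice (ind f 1) i 1) + avg (slice (ind f 1) i (-1)) := by
    rw [← avg_add]; exact avg_mono fun x => (sens_facts f i x).2.2.1
  have h4 : avg (sens f i) ≤ 2 - (avg (slice (ind f 1) i 1) + avg (slice (ind f 1) i (-1))) := by
    rw [← avg_add, ← avg_const (n := m) 2, ← avg_sub]
    exact avg_mono fun x => (sens_facts f i x).2.2.2.1
  have h5 : 0 ≤ avg (sens f i) := avg_nonneg fun x => (sens_facts f i x).2.2.2.2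
  refine ⟨abs_le.2 ⟨by linarith, h1⟩, ?_, h5⟩
  have : |avg (slice (ind f 1) i 1) + avg (slice (ind f 1) i (-1)) - 1| ≤ 1 - avg (sens f i) :=
    abs_le.2 ⟨by linarith, by linarith⟩
  linarith

/-- The influence bound in nats, on `Cube (m+1)`. -/
lemma influence_bound_nats {ε : ℝ} (h0 : 0 ≤ ε) (h1 : ε ≤ 1 / 2) {m : ℕ} (f : Cube (m + 1) → ℤˣ)
    (i : Fin (m + 1)) :
    infoFY ε f * Real.log 2 ≤
      Real.log 2 - (1 - (1 - 2 * ε) ^ 2) * Real.binEntropy ((1 + (1 - 2 * ε) * influence f i) / 2)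
        - (1 - 2 * ε) ^ 2 * influence f i * Real.binEntropy ε := by
  have he1 : ε ≤ 1 := by linarith
  have B := bound_nats h0 h1 f i
  rw [infoFYi_formula h0 he1 f i, influence_eq] at B
  rw [influence_eq]
  obtain ⟨F1, F2, F3⟩ := avg_facts f i
  set Pp := avg (slice (ind f 1) i 1) with hPp
  set Pm := avg (slice (ind f 1) i (-1)) with hPm
  set J := avg (sens f i) with hJ
  set r := 1 - 2 * ε with hr
  have hr0 : 0 ≤ r := by linarith
  have hr1 : r ≤ 1 := by linarith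
  have hJ1 : J ≤ 1 := by have := abs_nonneg (Pp + Pm - 1); linarith
  have ea : avg (ind f 1) = (Pp + Pm) / 2 := avg_succ i _
  have e1 : bent (mix ε 1 Pp Pm) = Lam ((Pp + Pm - 1) + r * (Pp - Pm)) - Real.log 2 := by
    rw [bent_eq_Lam]; unfold mix; rw [wt_one_one, wt_neg_one]; congr 2; rw [hr]; ring
  have e2 : bent (mix ε (-1) Pp Pm) = Lam ((Pp + Pm - 1) - r * (Pp - Pm)) - Real.log 2 := by
    rw [bent_eq_Lam]; unfold mix; rw [wt_one_neg, wt_neg_neg]; congr 2; rw [hr]; ring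
  have e3 : bent (avg (ind f 1)) = Lam (Pp + Pm - 1) - Real.log 2 := by
    rw [bent_eq_Lam, ea]; congr 2; ring
  have e4 : bent ε = Lam r - Real.log 2 := by
    rw [bent_eq_neg_binEntropy, hr, Lam_eq_binEntropy]; ring
  have e5 : Real.binEntropy ε = Real.log 2 - Lam r := by
    rw [hr, Lam_eq_binEntropy]; ring
  have e6 : Real.binEntropy ((1 + r * J) / 2) = Real.log 2 - Lam (r * J) := by
    have := Lam_eq_binEntropy ((1 + r * J) / 2)
    rw [show 1 - 2 * ((1 + r * J) / 2) = -(r * J) by ring, Lam_neg] at this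
    linarith
  rw [e1, e2, e3, e4] at B
  rw [e5, e6]
  have K := keyMu (u := Pp + Pm - 1) (b := Pp - Pm) hr0 hr1 (by linarith)
  have M : Lam (r * |Pp - Pm|) ≤ Lam (r * J) :=
    Lam_mono (mul_nonneg hr0 (abs_nonneg _)) (mul_le_mul_of_nonneg_left F1 hr0)
      (by nlinarith)
  have hr3 : 0 ≤ 1 - r ^ 2 := by nlinarith
  nlinarith [mul_le_mul_of_nonneg_left M hr3]

/-- The influence bound in bits. -/
theorem influence_bound {ε : ℝ} (h0 : 0 ≤ ε) (h1 : ε ≤ 1 / 2) {n : ℕ} (f : Cube n → ℤˣ)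
    (i : Fin n) :
    infoFY ε f ≤ 1 - (1 - (1 - 2 * ε) ^ 2) * h2 ((1 + (1 - 2 * ε) * influence f i) / 2)
        - (1 - 2 * ε) ^ 2 * influence f i * h2 ε := by
  cases n with
  | zero => exact i.elim0
  | succ m =>
    have hl : 0 < Real.log 2 := by positivity
    have := influence_bound_nats h0 h1 f i
    unfold h2
    rw [← mul_le_mul_iff_left₀ hl]
    calc infoFY ε f * Real.log 2 ≤ _ := this
      _ = _ := by field_simp

end Vale.Agent.Lib.P322
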