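import Vale.Agent.Lib.P322.SDPI

/-!
Formulas for the mutual informations `I(f(X);Y)` and `I(f(X);Y_i)`.
-/

namespace Vale.Agent.Lib.P322

open Finset

/-- Indicator of `f = u`. -/
noncomputable def ind {n : ℕ} (f : Cube n → ℤˣ) (u : ℤˣ) (x : Cube n) : ℝ := if f x = u then 1 else 0

/-- `bent t = t log t + (1-t) log (1-t)`, minus the binary entropy in nats. -/
noncomputable def bent (t : ℝ) : ℝ := phi t + phi (1 - t)

lemma ind_neg_one {n : ℕ} (f : Cube n → ℤˣ) (x : Cube n) : ind f (-1) x = 1 - ind f 1 x := by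
  unfold ind
  rcases Int.units_eq_one_or (f x) with h | h
  · have : (1 : ℤˣ) ≠ -1 := by decide
    simp [h, this]
  · have : (-1 : ℤˣ) ≠ 1 := by decide
    simp [h, this]

lemma ind_nonneg {n : ℕ} (f : Cube n → ℤˣ) (u : ℤˣ) (x : Cube n) : 0 ≤ ind f u x := by
  unfold ind; split_ifs <;> norm_num

lemma ind_zero_or_one {n : ℕ} (f : Cube n → ℤˣ) (u : ℤˣ) (x : Cube n) :
    ind f u x = 0 ∨ ind f u x = 1 := by
  unfold ind; split_ifs <;> simp

lemma mutualInfo_binary {β : Type} [Fintype β] (p : ℤˣ → β → ℝ) {q : ℝ} (hq : 0 < q)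
    (hp : ∀ u b, 0 ≤ p u b) (hm : ∀ b, p 1 b + p (-1) b = q) :
    mutualInfo p * Real.log 2 =
      ∑ b, q * (phi (p 1 b / q) + phi (p (-1) b / q))
        - phi (∑ b, p 1 b) - phi (∑ b, p (-1) b) := by
  have hlog2 : Real.log 2 ≠ 0 := by positivity
  have term : ∀ u b, p u b * Real.logb 2 (p u b / ((∑ b', p u b') * (∑ a', p a' b))) * Real.log 2
      = q * phi (p u b / q) - p u b * Real.log (∑ b', p u b') := by
    intro u b
    rw [sum_units, hm b]
    rcases (hp u b).eq_or_lt with h | h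
    · simp [← h]
    · have hA : 0 < ∑ b', p u b' :=
        Finset.sum_pos' (fun b' _ => hp u b') ⟨b, Finset.mem_univ b, h⟩
      unfold Real.logb phi
      rw [mul_assoc, div_mul_cancel₀ _ hlog2, mul_comm (∑ b', p u b') q, ← div_div,
        Real.log_div (by positivity) hA.ne']
      field_simp
  unfold mutualInfo
  rw [Finset.sum_mul, sum_units, Finset.sum_mul, Finset.sum_mul]
  simp only [term]
  rw [Finset.sum_sub_distrib, Finset.sum_sub_distrib, ← Finset.sum_mul, ← Finset.sum_mul]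
  simp only [mul_add, Finset.sum_add_distrib]
  unfold phi
  ring

lemma units_aux : ∀ a b : ℤˣ, (a⁻¹ * b = -1) ↔ a ≠ b := by decide

lemma prob_eq_ker (ε : ℝ) {n : ℕ} (x y : Cube n) :
    prob ε (x, x⁻¹ * y) = (1 / 2 : ℝ) ^ n * ker ε x y := by
  unfold prob ker wt
  congr 1
  apply Finset.prod_congr rfl
  intro i _
  simp only [Pi.mul_apply, Pi.inv_apply]
  by_cases h : x i = y i
  · have : ¬ ((x i)⁻¹ * y i = -1) := by rw [units_aux]; simpa using h
    rw [if_neg this, if_pos h]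
  · have : ((x i)⁻¹ * y i = -1) := by rw [units_aux]; exact h
    rw [if_pos this, if_neg h]

lemma jointLaw_FY (ε : ℝ) {n : ℕ} (f : Cube n → ℤˣ) (u : ℤˣ) (y : Cube n) :
    jointLaw ε (fun ω : Cube n × Cube n => f ω.1) (fun ω => ω.1 * ω.2) u y
      = (1 / 2 : ℝ) ^ n * noiseOp ε (ind f u) y := by
  unfold jointLaw noiseOp
  rw [Fintype.sum_prod_type, Finset.mul_sum]
  apply Finset.sum_congr rfl
  intro x _
  rw [Finset.sum_eq_single (x⁻¹ * y)]
  · simp only [mul_inv_cancel_left, and_true]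
    rw [prob_eq_ker]
    unfold ind
    split_ifs <;> ring
  · intro z _ hz
    have : ¬ (x * z = y) := by
      intro h; apply hz; rw [← h]; simp
    simp [this]
  · intro h; exact absurd (Finset.mem_univ _) h

lemma noiseOp_one_sub (ε : ℝ) {n : ℕ} (g : Cube n → ℝ) (y : Cube n) :
    noiseOp ε (fun x => 1 - g x) y = 1 - noiseOp ε g y := by
  have h1 : (fun x => 1 - g x) = fun x => (fun _ => (1:ℝ)) x + (fun x => (-1) * g x) x := by
    funext x; ring
  rw [h1, noiseOp_add, noiseOp_const, noiseOp_const_mul]; ring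

lemma avg_one_sub {n : ℕ} (g : Cube n → ℝ) : avg (fun x => 1 - g x) = 1 - avg g := by
  rw [avg_sub, avg_const]

/-- Formula for `I(f(X);Y)` in nats. -/
lemma infoFY_formula {ε : ℝ} (h0 : 0 ≤ ε) (h1 : ε ≤ 1) {n : ℕ} (f : Cube n → ℤˣ) :
    infoFY ε f * Real.log 2 =
      avg (fun y => bent (noiseOp ε (ind f 1) y)) - bent (avg (ind f 1)) := by
  unfold infoFY
  have hq : (0:ℝ) < (1 / 2 : ℝ) ^ n := by positivity
  have hneg : ind f (-1) = fun x => 1 - ind f 1 x := funext (ind_neg_one f)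
  rw [mutualInfo_binary _ hq]
  · simp only [jointLaw_FY]
    simp only [mul_div_cancel_left₀ _ hq.ne']
    rw [← Finset.mul_sum, ← Finset.mul_sum, ← Finset.mul_sum]
    have e1 : (1 / 2 : ℝ) ^ n * ∑ y, noiseOp ε (ind f 1) y = avg (ind f 1) := by
      rw [← avg_noiseOp ε]; rfl
    have e2 : (1 / 2 : ℝ) ^ n * ∑ y, noiseOp ε (ind f (-1)) y = 1 - avg (ind f 1) := by
      rw [← avg_one_sub, ← hneg, ← avg_noiseOp ε]; rfl
    rw [e1, e2]
    unfold bent avg
    simp only [hneg, noiseOp_one_sub]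
    ring
  · intro u y
    rw [jointLaw_FY]
    exact mul_nonneg hq.le (noiseOp_nonneg h0 h1 (ind_nonneg f u) y)
  · intro y
    rw [jointLaw_FY, jointLaw_FY, hneg, noiseOp_one_sub]; ring

end Vale.Agent.Lib.P322
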