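import Vale.Agent.Lib.P322.CubeBasic

/-!
The tensorised strong data processing inequality for `phi t = t log t` on the cube.
-/

namespace Vale.Agent.Lib.P322

open Finset

lemma gibbs_point {g a b p : ℝ} (hg : 0 ≤ g) (ha : 0 < a) (hb0 : 0 ≤ b) (hp0 : 0 ≤ p)
    (hb : 0 < g → 0 < b) (hp : 0 < g → 0 < p) :
    g - b * p / a ≤ phi g + g * Real.log a - g * Real.log b - g * Real.log p := by
  rcases hg.eq_or_lt with h | h
  · subst h
    have : 0 ≤ b * p / a := by positivity
    simp; linarith
  · have hb' := hb h
    have hp' := hp h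
    have hr : 0 < b * p / (g * a) := by positivity
    have key := Real.log_le_sub_one_of_pos hr
    rw [Real.log_div (by positivity) (by positivity), Real.log_mul hb'.ne' hp'.ne',
      Real.log_mul h.ne' ha.ne'] at key
    have h2 : g * (b * p / (g * a)) = b * p / a := by field_simp
    have h3 := mul_le_mul_of_nonneg_left key h.le
    unfold phi
    nlinarith

lemma superadd {m : ℕ} {g1 g2 : Cube m → ℝ} (h1 : ∀ x, 0 ≤ g1 x) (h2 : ∀ x, 0 ≤ g2 x) :
    avg (fun x => phi ((g1 x + g2 x) / 2)) + (phi (avg g1) + phi (avg g2)) / 2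
      ≤ (avg (fun x => phi (g1 x)) + avg (fun x => phi (g2 x))) / 2
        + phi ((avg g1 + avg g2) / 2) := by
  have hp1 : 0 ≤ avg g1 := avg_nonneg h1
  have hp2 : 0 ≤ avg g2 := avg_nonneg h2
  rcases (show 0 ≤ (avg g1 + avg g2) / 2 by positivity).eq_or_lt with ha | ha
  · have e1 : avg g1 = 0 := by linarith
    have e2 : avg g2 = 0 := by linarith
    have z1 := eq_zero_of_avg_eq_zero h1 e1
    have z2 := eq_zero_of_avg_eq_zero h2 e2
    simp [e1, e2, z1, z2, avg_const]
  · have point : ∀ x, phi ((g1 x + g2 x) / 2)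
        + (g1 x * Real.log (avg g1) + g2 x * Real.log (avg g2)) / 2
        - (g1 x + g2 x) / 2 * Real.log ((avg g1 + avg g2) / 2)
        ≤ (phi (g1 x) + phi (g2 x)) / 2 := by
      intro x
      have b0 : 0 ≤ (g1 x + g2 x) / 2 := by have := h1 x; have := h2 x; positivity
      have E1 := gibbs_point (h1 x) ha b0 hp1
        (fun h => by have := h2 x; linarith) (fun h => avg_pos_of h1 h)
      have E2 := gibbs_point (h2 x) ha b0 hp2
        (fun h => by have := h1 x; linarith) (fun h => avg_pos_of h2 h)
      have e : (g1 x + g2 x) / 2 * avg g1 / ((avg g1 + avg g2) / 2)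
          + (g1 x + g2 x) / 2 * avg g2 / ((avg g1 + avg g2) / 2) = g1 x + g2 x := by
        have hne : avg g1 + avg g2 ≠ 0 := by linarith
        field_simp
      have e' : phi ((g1 x + g2 x) / 2)
          = (g1 x + g2 x) / 2 * Real.log ((g1 x + g2 x) / 2) := rfl
      rw [e']
      linarith
    have := avg_mono point
    simp only [avg_add, avg_sub, avg_mul_const, avg_div_const] at this
    unfold phi at this ⊢
    linarith

/-- The tensorised strong data processing inequality. -/
theorem sdpi {ε : ℝ} (h0 : 0 ≤ ε) (h1 : ε ≤ 1 / 2) : ∀ (n : ℕ) (g : Cube n → ℝ), (∀ x, 0 ≤ g x) →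
    avg (fun y => phi (noiseOp ε g y))
      ≤ (1 - 2 * ε) ^ 2 * avg (fun x => phi (g x)) + (1 - (1 - 2 * ε) ^ 2) * phi (avg g) := by
  intro n
  induction n with
  | zero =>
    intro g _
    have hu : ∀ F : Cube 0 → ℝ, avg F = F default := by
      intro F; unfold avg; rw [Fintype.sum_unique, pow_zero, one_mul]
      exact congrArg F (Subsingleton.elim _ _)
    have hk : noiseOp ε g default = g default := by
      unfold noiseOp ker; rw [Fintype.sum_unique]; simp
      exact congrArg g (Subsingleton.elim _ _)
    rw [hu, hu, hu, hk]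
    apply le_of_eq; ring
  | succ m ih =>
    intro g hg
    set r := 1 - 2 * ε with hr
    have hr0 : 0 ≤ r := by linarith
    have hr1 : r ≤ 1 := by linarith
    have he1 : ε ≤ 1 := by linarith
    set g1 := slice g 0 1 with hg1
    set g2 := slice g 0 (-1) with hg2
    have p1 : ∀ x, 0 ≤ g1 x := fun x => hg _
    have p2 : ∀ x, 0 ≤ g2 x := fun x => hg _
    set A := noiseOp ε g1 with hA
    set B := noiseOp ε g2 with hB
    have pA : ∀ y, 0 ≤ A y := noiseOp_nonneg h0 he1 p1
    have pB : ∀ y, 0 ≤ B y := noiseOp_nonneg h0 he1 p2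
    have ne : (1 : ℤˣ) ≠ -1 := by decide
    have ne' : (-1 : ℤˣ) ≠ 1 := by decide
    -- left-hand side
    have L : avg (fun y => phi (noiseOp ε g y))
        = avg (fun y => (phi ((A y + B y) / 2 + r * ((A y - B y) / 2))
            + phi ((A y + B y) / 2 - r * ((A y - B y) / 2))) / 2) := by
      rw [avg_succ 0, avg_div_const, avg_add]
      congr 2
      · unfold slice
        congr 1; funext y
        beta_reduce
        rw [noiseOp_insertNth]
        simp only [wt, ne', if_true, if_false]
        congr 1; rw [hr]; ring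
      · unfold slice
        congr 1; funext y
        beta_reduce
        rw [noiseOp_insertNth]
        simp only [wt, ne, if_true, if_false]
        congr 1; rw [hr]; ring
    have step1 : avg (fun y => (phi ((A y + B y) / 2 + r * ((A y - B y) / 2))
            + phi ((A y + B y) / 2 - r * ((A y - B y) / 2))) / 2)
        ≤ avg (fun y => r ^ 2 * ((phi (A y) + phi (B y)) / 2)
            + (1 - r ^ 2) * phi ((A y + B y) / 2)) :=
      avg_mono fun y => two_point (pA y) (pB y) hr0 hr1
    have step2 : avg (fun y => r ^ 2 * ((phi (A y) + phi (B y)) / 2)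
            + (1 - r ^ 2) * phi ((A y + B y) / 2))
        = r ^ 2 * ((avg (fun y => phi (A y)) + avg (fun y => phi (B y))) / 2)
            + (1 - r ^ 2) * avg (fun y => phi ((A y + B y) / 2)) := by
      simp only [avg_add, avg_const_mul, avg_div_const]
    have hAB : ∀ y, (A y + B y) / 2 = noiseOp ε (fun x => (1 / 2) * (g1 x + g2 x)) y := by
      intro y
      rw [noiseOp_const_mul, noiseOp_add]; ring
    have ihA := ih g1 p1
    have ihB := ih g2 p2
    have ihM := ih (fun x => (1 / 2) * (g1 x + g2 x))
      (fun x => by have := p1 x; have := p2 x; positivity)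
    simp only [← hAB] at ihM
    have eM : avg (fun x => (1 / 2) * (g1 x + g2 x)) = (avg g1 + avg g2) / 2 := by
      rw [avg_const_mul, avg_add]; ring
    rw [eM] at ihM
    have eM2 : avg (fun x => phi ((1 / 2) * (g1 x + g2 x)))
        = avg (fun x => phi ((g1 x + g2 x) / 2)) := by
      congr 1; funext x; congr 1; ring
    rw [eM2] at ihM
    have sa := superadd p1 p2
    have R1 : avg (fun x => phi (g x))
        = (avg (fun x => phi (g1 x)) + avg (fun x => phi (g2 x))) / 2 := by
      rw [avg_succ 0]; rfl
    have R2 : avg g = (avg g1 + avg g2) / 2 := avg_succ 0 g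
    rw [L, R1, R2]
    refine le_trans step1 ?_
    rw [step2]
    have hr2 : 0 ≤ r ^ 2 := by positivity
    have hr3 : 0 ≤ 1 - r ^ 2 := by nlinarith
    have hh := mul_nonneg hr2 hr3
    nlinarith [mul_le_mul_of_nonneg_left ihA hr2, mul_le_mul_of_nonneg_left ihB hr2,
      mul_le_mul_of_nonneg_left ihM hr3, mul_le_mul_of_nonneg_left sa hh]

end Vale.Agent.Lib.P322
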