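import Vale.Agent.Lib.P322.Analysis

/-!
Two-point inequalities for `phi t = t log t`.
-/

namespace Vale.Agent.Lib.P322

open Real Set

lemma phi_mul (m s : ℝ) : phi (m * s) = m * phi s + s * phi m := by
  unfold phi
  by_cases hm : m = 0
  · simp [hm]
  by_cases hs : s = 0
  · simp [hs]
  rw [Real.log_mul hm hs]; ring

lemma ent2_eq (m t : ℝ) : (phi (m * (1 + t)) + phi (m * (1 - t))) / 2 = phi m + m * Lam t := by
  rw [phi_mul, phi_mul]; unfold Lam; ring

lemma Lam_mul_le' {l t : ℝ} (hl0 : 0 ≤ l) (hl1 : l ≤ 1) (ht0 : -1 ≤ t) (ht1 : t ≤ 1) :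
    Lam (l * t) ≤ l ^ 2 * Lam t := by
  rcases le_total 0 t with h | h
  · exact Lam_mul_le hl0 hl1 h ht1
  · have := Lam_mul_le hl0 hl1 (t := -t) (by linarith) (by linarith)
    rwa [Lam_neg, show l * -t = -(l * t) by ring, Lam_neg] at this

lemma Lam_nonneg' {t : ℝ} (ht0 : -1 ≤ t) (ht1 : t ≤ 1) : 0 ≤ Lam t := by
  rcases le_total 0 t with h | h
  · exact Lam_nonneg h ht1
  · rw [← Lam_neg]; exact Lam_nonneg (by linarith) (by linarith)

lemma Lam_ge_sq' {t : ℝ} (ht0 : -1 ≤ t) (ht1 : t ≤ 1) : t ^ 2 / 2 ≤ Lam t := by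
  rcases le_total 0 t with h | h
  · exact Lam_ge_sq h ht1
  · rw [← Lam_neg]
    have := Lam_ge_sq (t := -t) (by linarith) (by linarith)
    nlinarith

/-- The two-point strong data processing inequality. -/
lemma two_point {u v r : ℝ} (hu : 0 ≤ u) (hv : 0 ≤ v) (hr0 : 0 ≤ r) (hr1 : r ≤ 1) :
    (phi ((u + v) / 2 + r * ((u - v) / 2)) + phi ((u + v) / 2 - r * ((u - v) / 2))) / 2
      ≤ r ^ 2 * ((phi u + phi v) / 2) + (1 - r ^ 2) * phi ((u + v) / 2) := by
  set m := (u + v) / 2 with hm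
  rcases (show 0 ≤ m by positivity).eq_or_lt with h0 | hpos
  · have hu0 : u = 0 := by linarith
    have hv0 : v = 0 := by linarith
    simp [← h0, hu0, hv0]
  · set t := ((u - v) / 2) / m with ht
    have hd : (u - v) / 2 = m * t := by rw [ht]; field_simp
    have ht0 : -1 ≤ t := by rw [ht, le_div_iff₀ hpos]; linarith
    have ht1 : t ≤ 1 := by rw [ht, div_le_iff₀ hpos]; linarith
    have e1 : m + r * ((u - v) / 2) = m * (1 + r * t) := by rw [hd]; ring
    have e2 : m - r * ((u - v) / 2) = m * (1 - r * t) := by rw [hd]; ring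
    have e3 : u = m * (1 + t) := by
      have : u = m + (u - v) / 2 := by rw [hm]; ring
      rw [this, hd]; ring
    have e4 : v = m * (1 - t) := by
      have : v = m - (u - v) / 2 := by rw [hm]; ring
      rw [this, hd]; ring
    rw [e1, e2, ent2_eq]
    have e5 : (phi u + phi v) / 2 = phi m + m * Lam t := by
      rw [← ent2_eq, ← e3, ← e4]
    rw [e5]
    have := Lam_mul_le' hr0 hr1 ht0 ht1
    nlinarith

/-- The chord inequality: `a * Lam (r c / a) ≤ (c^2 / a) * Lam r` when `|c| ≤ a`. -/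
lemma chord {a c r : ℝ} (ha : 0 < a) (hc : |c| ≤ a) (hr0 : 0 ≤ r) (hr1 : r ≤ 1) :
    a * Lam (r * c / a) ≤ c ^ 2 / a * Lam r := by
  have h1 : Lam (r * c / a) = Lam (|c| / a * r) := by
    rcases abs_cases c with ⟨h, _⟩ | ⟨h, _⟩
    · rw [h]; congr 1; ring
    · rw [h, ← Lam_neg]; congr 1; ring
  have h2 : Lam (|c| / a * r) ≤ (|c| / a) ^ 2 * Lam r :=
    Lam_mul_le (by positivity) (by rw [div_le_one ha]; exact hc) hr0 hr1
  rw [h1]
  calc a * Lam (|c| / a * r) ≤ a * ((|c| / a) ^ 2 * Lam r) := by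
        exact mul_le_mul_of_nonneg_left h2 ha.le
    _ = c ^ 2 / a * Lam r := by
        rw [div_pow, sq_abs]; field_simp

lemma binEntropy_eq_phi (p : ℝ) : Real.binEntropy p = -phi p - phi (1 - p) := by
  unfold Real.binEntropy phi
  rw [Real.log_inv, Real.log_inv]; ring

lemma Lam_eq_binEntropy (e : ℝ) : Lam (1 - 2 * e) = Real.log 2 - Real.binEntropy e := by
  rw [binEntropy_eq_phi]
  unfold Lam
  rw [show 1 + (1 - 2 * e) = 2 * (1 - e) by ring, show 1 - (1 - 2 * e) = 2 * e by ring,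
    phi_mul, phi_mul]
  unfold phi
  ring

end Vale.Agent.Lib.P322
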